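import Crest.Agent.X262.Int23.Abs

/-!
# Row 262, INT (helper23), part 2: pairs of correspondences with a multiplier

* `Hom h h' ψ`        : integral and type preserving;
* `Cor2 h h' ψ χ N`   : two such maps with `(ψ x, χ y) = N (x, y)` on `O₁ × O₂` and `O₂ × O₁`;
* `Cor2.comp`, `Corr.cor2`, `Cor2.iso`, `Cor2.onto`, `Cor2.finrank_T`, `Cor2.finrank_O₁`;
* `Cor2.dvd`          : the degree of the target divides `N` times the degree of the source.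
-/

set_option autoImplicit false

namespace Crest.Agent.X262.Int23

open Module

variable {H H' H'' : Type*} [AddCommGroup H] [Module ℂ H] [AddCommGroup H'] [Module ℂ H']
  [AddCommGroup H''] [Module ℂ H'']

/-- an integral map which preserves the types -/
structure Hom (h : HL H) (h' : HL H') (ψ : H →ₗ[ℂ] H') : Prop where
  int : ∀ x ∈ h.Λ, ψ x ∈ h'.Λ
  o1 : ∀ x ∈ h.O₁, ψ x ∈ h'.O₁
  m : ∀ x ∈ h.M, ψ x ∈ h'.M
  o2 : ∀ x ∈ h.O₂, ψ x ∈ h'.O₂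

variable {h : HL H} {h' : HL H'} {h'' : HL H''} {ψ χ : H →ₗ[ℂ] H'} {ψ' χ' : H' →ₗ[ℂ] H''}
  {N N' : ℤ}

namespace Hom

theorem comp (c : Hom h h' ψ) (c' : Hom h' h'' ψ') : Hom h h'' (ψ' ∘ₗ ψ) where
  int x hx := c'.int _ (c.int x hx)
  o1 x hx := c'.o1 _ (c.o1 x hx)
  m x hx := c'.m _ (c.m x hx)
  o2 x hx := c'.o2 _ (c.o2 x hx)

theorem neg (c : Hom h h' ψ) : Hom h h' (-ψ) where
  int x hx := neg_mem (c.int x hx)
  o1 x hx := neg_mem (c.o1 x hx)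
  m x hx := neg_mem (c.m x hx)
  o2 x hx := neg_mem (c.o2 x hx)

theorem of_pair (hi : ∀ x ∈ h.Λ, ∀ y ∈ h'.Λ, ∃ k : ℤ, h'.B (ψ x) y = k)
    (h11 : ∀ x ∈ h.O₁, ∀ y ∈ h'.O₁, h'.B (ψ x) y = 0)
    (h1M : ∀ x ∈ h.O₁, ∀ y ∈ h'.M, h'.B (ψ x) y = 0)
    (hM1 : ∀ x ∈ h.M, ∀ y ∈ h'.O₁, h'.B (ψ x) y = 0)
    (hM2 : ∀ x ∈ h.M, ∀ y ∈ h'.O₂, h'.B (ψ x) y = 0)
    (h2M : ∀ x ∈ h.O₂, ∀ y ∈ h'.M, h'.B (ψ x) y = 0)
    (h22 : ∀ x ∈ h.O₂, ∀ y ∈ h'.O₂, h'.B (ψ x) y = 0) : Hom h h' ψ where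
  int x hx := h'.dual _ (hi x hx)
  o1 x hx := HL.mem_O₁ (h11 x hx) (h1M x hx)
  m x hx := HL.mem_M (hM1 x hx) (hM2 x hx)
  o2 x hx := HL.mem_O₂ (h22 x hx) (h2M x hx)

/-- the adjoint -/
theorem adj (c : Hom h h' ψ) {g : H' →ₗ[ℂ] H} (hg : ∀ x y, h.B (g x) y = h'.B x (ψ y)) :
    Hom h' h g :=
  of_pair (fun x hx y hy => hg x y ▸ h'.int x hx _ (c.int y hy))
    (fun x hx y hy => hg x y ▸ h'.o11 x hx _ (c.o1 y hy))
    (fun x hx y hy => hg x y ▸ h'.o1M x hx _ (c.m y hy))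
    (fun x hx y hy => by rw [hg, h'.symm, h'.o1M _ (c.o1 y hy) x hx])
    (fun x hx y hy => by rw [hg, h'.symm, h'.o2M _ (c.o2 y hy) x hx])
    (fun x hx y hy => hg x y ▸ h'.o2M x hx _ (c.m y hy))
    (fun x hx y hy => hg x y ▸ h'.o22 x hx _ (c.o2 y hy))

theorem map_T [FiniteDimensional ℂ H] (c : Hom h h' ψ) {x : H} (hx : x ∈ h.T) : ψ x ∈ h'.T :=
  fun n h1 h2 =>
    HL.kill_T (φ := h'.B.flip n ∘ₗ ψ) (fun y hy => h'.int _ (c.int y hy) n h1)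
      (fun y hy => h'.o1M _ (c.o1 y hy) n h2) (fun y hy => h'.o2M _ (c.o2 y hy) n h2) hx

end Hom

theorem Corr.hom (c : Corr h h' ψ) : Hom h h' ψ := ⟨c.int, c.o1, c.m, c.o2⟩

theorem Hom.corr (c : Hom h h' ψ)
    (hp : ∀ x ∈ h.O₁, ∀ y ∈ h.O₂, h'.B (ψ x) (ψ y) = h.B x y) : Corr h h' ψ :=
  ⟨c.int, c.o1, c.m, c.o2, hp⟩

/-- two integral type preserving maps which are adjoint inverse on `O₁`, `O₂` up to `N` -/
structure Cor2 (h : HL H) (h' : HL H') (ψ χ : H →ₗ[ℂ] H') (N : ℤ) : Prop where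
  l : Hom h h' ψ
  r : Hom h h' χ
  ne : N ≠ 0
  p12 : ∀ x ∈ h.O₁, ∀ y ∈ h.O₂, h'.B (ψ x) (χ y) = N * h.B x y
  p21 : ∀ x ∈ h.O₂, ∀ y ∈ h.O₁, h'.B (ψ x) (χ y) = N * h.B x y

theorem Corr.cor2 (c : Corr h h' ψ) : Cor2 h h' ψ ψ 1 where
  l := c.hom
  r := c.hom
  ne := one_ne_zero
  p12 x hx y hy := by rw [c.pair x hx y hy, Int.cast_one, one_mul]
  p21 x hx y hy := by rw [h'.symm, c.pair y hy x hx, Int.cast_one, one_mul, h.symm]

namespace Cor2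

theorem comp (c : Cor2 h h' ψ χ N) (c' : Cor2 h' h'' ψ' χ' N') :
    Cor2 h h'' (ψ' ∘ₗ ψ) (χ' ∘ₗ χ) (N' * N) where
  l := c.l.comp c'.l
  r := c.r.comp c'.r
  ne := mul_ne_zero c'.ne c.ne
  p12 x hx y hy := (c'.p12 _ (c.l.o1 x hx) _ (c.r.o2 y hy)).trans (by
    rw [c.p12 x hx y hy, Int.cast_mul, mul_assoc])
  p21 x hx y hy := (c'.p21 _ (c.l.o2 x hx) _ (c.r.o1 y hy)).trans (by
    rw [c.p21 x hx y hy, Int.cast_mul, mul_assoc])

theorem swap (c : Cor2 h h' ψ χ N) : Cor2 h h' χ ψ N where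
  l := c.r
  r := c.l
  ne := c.ne
  p12 x hx y hy := by rw [h'.symm, c.p21 y hy x hx, h.symm]
  p21 x hx y hy := by rw [h'.symm, c.p12 y hy x hx, h.symm]

theorem neg (c : Cor2 h h' ψ χ N) : Cor2 h h' ψ (-χ) (-N) where
  l := c.l
  r := c.r.neg
  ne := neg_ne_zero.2 c.ne
  p12 x hx y hy := by rw [LinearMap.neg_apply, map_neg, c.p12 x hx y hy, Int.cast_neg, neg_mul]
  p21 x hx y hy := by rw [LinearMap.neg_apply, map_neg, c.p21 x hx y hy, Int.cast_neg, neg_mul]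

variable [FiniteDimensional ℂ H]

theorem iso (c : Cor2 h h' ψ χ N) {x : H} (hx : x ∈ h.T) (y : H) :
    h'.B (ψ x) (χ y) = N * h.B x y := by
  have h1 : ∀ y ∈ h.Λ, h'.B (ψ x) (χ y) = N * h.B x y := by
    intro y hy
    obtain ⟨a, ha, b, hb, e, he, h2⟩ := h.dec y
    refine sub_eq_zero.1 (HL.kill_T (φ := h'.B.flip (χ y) ∘ₗ ψ - (N : ℂ) • h.B.flip y)
      (fun z hz => ?_) (fun z hz => sub_eq_zero.2 ?_) (fun z hz => sub_eq_zero.2 ?_) hx)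
    · obtain ⟨k, hk⟩ := h'.int _ (c.l.int z hz) _ (c.r.int y hy)
      obtain ⟨k', hk'⟩ := h.int z hz y hy
      exact ⟨k - N * k', by rw [Int.cast_sub, Int.cast_mul, ← hk, ← hk']; rfl⟩
    · show h'.B (ψ z) (χ y) = N * h.B z y
      rw [h2]
      simp only [map_add]
      rw [h'.o11 _ (c.l.o1 z hz) _ (c.r.o1 a ha), h'.o1M _ (c.l.o1 z hz) _ (c.r.m b hb),
        c.p12 z hz e he, h.o11 z hz a ha, h.o1M z hz b hb]
      ring
    · show h'.B (ψ z) (χ y) = N * h.B z y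
      rw [h2]
      simp only [map_add]
      rw [h'.o22 _ (c.l.o2 z hz) _ (c.r.o2 e he), h'.o2M _ (c.l.o2 z hz) _ (c.r.m b hb),
        c.p21 z hz a ha, h.o22 z hz e he, h.o2M z hz b hb]
      ring
  exact Submodule.span_induction (p := fun y _ => h'.B (ψ x) (χ y) = N * h.B x y) h1 (by simp)
    (fun a b _ _ ha hb => by rw [map_add, map_add, map_add, ha, hb, mul_add])
    (fun r a _ ha => by
      rw [map_smul, map_smul, map_smul, ha, smul_eq_mul, smul_eq_mul, mul_left_comm])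
    (h.span ▸ Submodule.mem_top (x := y))

theorem inj (c : Cor2 h h' ψ χ N) {x : H} (hx : x ∈ h.T) (h0 : ψ x = 0) : x = 0 :=
  h.nd x fun y => by
    have h1 := c.iso hx y
    rw [h0, map_zero, LinearMap.zero_apply] at h1
    exact (mul_eq_zero.1 h1.symm).resolve_left (Int.cast_ne_zero.2 c.ne)

theorem finrank_map (c : Cor2 h h' ψ χ N) {S : Submodule ℂ H} (hS : S ≤ h.T) :
    finrank ℂ (S.map ψ) = finrank ℂ S := by
  have h1 : Function.Injective (ψ.domRestrict S) :=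
    (injective_iff_map_eq_zero _).2 fun x hx => Subtype.ext (c.inj (hS x.2) hx)
  rw [← LinearMap.finrank_range_of_inj h1, LinearMap.range_domRestrict]

variable [FiniteDimensional ℂ H']

theorem finrank_O₁_le (c : Cor2 h h' ψ χ N) : finrank ℂ h.O₁ ≤ finrank ℂ h'.O₁ := by
  rw [← c.finrank_map HL.O₁_le_T]
  exact Submodule.finrank_mono (Submodule.map_le_iff_le_comap.2 c.l.o1)

theorem finrank_T_le (c : Cor2 h h' ψ χ N) : finrank ℂ h.T ≤ finrank ℂ h'.T := by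
  rw [← c.finrank_map le_rfl]
  exact Submodule.finrank_mono (Submodule.map_le_iff_le_comap.2 fun x hx => c.l.map_T hx)

theorem map_O₁ (c : Cor2 h h' ψ χ N) (he : finrank ℂ h'.O₁ ≤ finrank ℂ h.O₁) :
    h.O₁.map ψ = h'.O₁ :=
  Submodule.eq_of_le_of_finrank_le (Submodule.map_le_iff_le_comap.2 c.l.o1)
    (by rwa [c.finrank_map HL.O₁_le_T])

theorem map_O₂ (c : Cor2 h h' ψ χ N) (he : finrank ℂ h'.O₁ ≤ finrank ℂ h.O₁) :
    h.O₂.map ψ = h'.O₂ :=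
  Submodule.eq_of_le_of_finrank_le (Submodule.map_le_iff_le_comap.2 c.l.o2)
    (by rwa [c.finrank_map HL.O₂_le_T, HL.finrank_O₂, HL.finrank_O₂])

theorem onto (c : Cor2 h h' ψ χ N) (he : finrank ℂ h'.O₁ ≤ finrank ℂ h.O₁) :
    h.T.map ψ = h'.T := by
  refine le_antisymm (Submodule.map_le_iff_le_comap.2 fun x hx => c.l.map_T hx) ?_
  have h1 : h.T.map ψ ≤ Submodule.span ℂ (ψ '' {y | y ∈ h.Λ ∧ y ∈ h.T}) := by
    rw [← Submodule.map_span]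
    exact Submodule.map_mono HL.T_le_span
  refine (HL.T_le (S := ψ '' {y | y ∈ h.Λ ∧ y ∈ h.T}) ?_ ?_ ?_).trans (Submodule.span_le.2 ?_)
  · rintro _ ⟨y, hy, rfl⟩
    exact c.l.int y hy.1
  · exact c.map_O₁ he ▸ (Submodule.map_mono HL.O₁_le_T).trans h1
  · exact c.map_O₂ he ▸ (Submodule.map_mono HL.O₂_le_T).trans h1
  · rintro _ ⟨y, hy, rfl⟩
    exact ⟨y, hy.2, rfl⟩

theorem finrank_T (c : Cor2 h h' ψ χ N) (he : finrank ℂ h'.O₁ ≤ finrank ℂ h.O₁) :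
    finrank ℂ h.T = finrank ℂ h'.T := by
  rw [← c.onto he, c.finrank_map le_rfl]

theorem finrank_O₁ (c : Cor2 h h' ψ χ N) (h0 : h.O₁ ≠ ⊥) (h1 : finrank ℂ h'.O₁ = 1) :
    finrank ℂ h.O₁ = 1 :=
  le_antisymm (h1 ▸ c.finrank_O₁_le) (Submodule.one_le_finrank_iff.2 h0)

/-- the degree of the target divides `N` times the degree of the source -/
theorem dvd (c : Cor2 h h' ψ χ N) (he : finrank ℂ h'.O₁ ≤ finrank ℂ h.O₁) {d d' : ℕ}
    (hd : h.Pic1 d) (hd' : h'.Pic1 d') : (d' : ℤ) ∣ N * d := by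
  obtain ⟨-, L, h1, h2, h3, h4⟩ := hd
  obtain ⟨h0, L', h1', h2', h3', h4'⟩ := hd'
  have h0' : (d' : ℂ) ≠ 0 := Nat.cast_ne_zero.2 h0
  obtain ⟨γ, hγ, h5⟩ := HL.exists_dual h1' h2' (h3' ▸ h0') h4'
  have h6 : γ - (d' : ℂ)⁻¹ • L' ∈ h'.T := fun n h7 h8 => by
    obtain ⟨k, rfl⟩ := h4' n h7 h8
    rw [map_zsmul, map_sub, LinearMap.sub_apply, map_smul, LinearMap.smul_apply, h'.symm γ, h5,
      h3', smul_eq_mul, inv_mul_cancel₀ h0', sub_self, smul_zero]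
  obtain ⟨y, hy, h7⟩ : γ - (d' : ℂ)⁻¹ • L' ∈ h.T.map ψ := (c.onto he).symm ▸ h6
  have h8 : ((N : ℂ) * d) • y ∈ h.Λ := h.dual _ fun μ hμ => by
    obtain ⟨k, hk⟩ := h.int μ hμ L h1
    have h9 : d • μ - k • L ∈ h.T := fun n h10 h11 => by
      obtain ⟨m, rfl⟩ := h4 n h10 h11
      rw [map_zsmul, map_sub, LinearMap.sub_apply, map_nsmul, map_zsmul, LinearMap.smul_apply,
        LinearMap.smul_apply, hk, h3, nsmul_eq_mul, zsmul_eq_mul (d : ℂ), mul_comm (d : ℂ),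
        sub_self, smul_zero]
    obtain ⟨m, hm⟩ := h'.int γ hγ _ (c.r.int _ (sub_mem (nsmul_mem hμ d) (zsmul_mem h1 k)))
    refine ⟨m, ?_⟩
    have h10 := c.iso hy (d • μ - k • L)
    rw [h7, map_sub h'.B, LinearMap.sub_apply, hm, map_smul, LinearMap.smul_apply, h'.symm L',
      c.r.map_T h9 L' h1' h2', smul_zero, sub_zero, map_sub, map_nsmul, map_zsmul, hy L h1 h2,
      smul_zero, sub_zero, nsmul_eq_mul] at h10
    rw [map_smul, LinearMap.smul_apply, smul_eq_mul, h10, mul_assoc]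
  obtain ⟨k, hk⟩ := h'.int _ (c.l.int _ h8) γ hγ
  obtain ⟨k', hk'⟩ := h'.int γ hγ γ hγ
  rw [map_smul, h7, map_smul, LinearMap.smul_apply, map_sub, LinearMap.sub_apply, map_smul,
    LinearMap.smul_apply, h5, hk', smul_eq_mul, smul_eq_mul, mul_one] at hk
  have h9 : (N : ℂ) * d = d' * (N * d * k' - k) := by
    rw [← hk]
    field_simp
    ring
  exact ⟨N * d * k' - k, by exact_mod_cast h9⟩

theorem le (c : Cor2 h h' ψ χ N) (he : finrank ℂ h'.O₁ ≤ finrank ℂ h.O₁) {d d' : ℕ}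
    (hd : h.Pic1 d) (hd' : h'.Pic1 d') : d' ≤ N.natAbs * d := by
  have h1 := Int.natAbs_dvd_natAbs.2 (c.dvd he hd hd')
  rw [Int.natAbs_mul, Int.natAbs_natCast, Int.natAbs_natCast] at h1
  exact Nat.le_of_dvd (Nat.pos_of_ne_zero (mul_ne_zero (Int.natAbs_ne_zero.2 c.ne) hd.1)) h1

end Cor2

end Crest.Agent.X262.Int23
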