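import Crest.Agent.X262.Coh.Defs
import Crest.Agent.X262.Int23.Abs2

/-!
# Row 262, INT (helper23), part 3: the Hodge lattice of a surface in a cohomology theory

* calculus: `dg_ind`, `eq_zero_of_dg`, `push_adj`, `push_dg`, `push_typ`, `itg_pb`;
* `hl A X h` : the Hodge lattice on `C.dg X 1`;
* `Pre C f` : integral and type preserving maps; `Rel A X Y N` : there is a `Cor2`.
-/

set_option autoImplicit false
set_option linter.style.haveILetI false

noncomputable section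

namespace Crest.Agent.X262.Int23

open Module Crest.Agent.X262.Coh Crest.Agent.X277 Crest.Agent.X277.Lef Crest.Agent.X277.AN.G1
  Crest.Agent.X277.BD Crest.Agent.X277.BD.Br

variable {C : Th} (A : C.Ax) {X Y Z : SV}

include A

/-! ### gradings -/

theorem dg_ind {p : C.H X → Prop} (h : ∀ k, ∀ x ∈ C.dg X k, p x)
    (ha : ∀ x y, p x → p y → p (x + y)) (x : C.H X) : p x :=
  Submodule.iSup_induction (C.dg X) (motive := p)
    ((A.man.dg_int X).submodule_iSup_eq_top ▸ Submodule.mem_top (x := x)) h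
    (h 0 0 (zero_mem _)) ha

theorem typ_ind {p : C.H X → Prop} (h : ∀ i j, ∀ x ∈ C.typ X i j, p x)
    (ha : ∀ x y, p x → p y → p (x + y)) (x : C.H X) : p x :=
  Submodule.iSup_induction (fun pq : ℕ × ℕ => C.typ X pq.1 pq.2) (motive := p)
    ((A.typ.int X).submodule_iSup_eq_top ▸ Submodule.mem_top (x := x)) (fun pq => h pq.1 pq.2)
    (h 0 0 0 (zero_mem _)) ha

theorem typ_gt' (p : ℕ) {q : ℕ} (h : X.dim < q) : C.typ X p q = ⊥ :=
  (Submodule.eq_bot_iff _).2 fun a ha => by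
    have h1 := A.typ.cj X a ha
    rw [A.typ.gt X p h, Submodule.mem_bot] at h1
    rw [← A.man.cj_cj X a, h1, map_zero]

/-- only the type `(n, n)` is integrated -/
theorem itg_typ {p q : ℕ} (h : p ≠ X.dim ∨ q ≠ X.dim) {a : C.H X} (ha : a ∈ C.typ X p q) :
    C.itg X a = 0 := by
  rcases Nat.even_or_odd (p + q) with ⟨k, hk⟩ | h1
  · by_cases h2 : k = X.dim
    · rcases Nat.lt_or_ge X.dim p with h3 | h3
      · rw [A.typ.gt X q h3, Submodule.mem_bot] at ha
        rw [ha, map_zero]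
      · rw [typ_gt' A p (show X.dim < q by omega), Submodule.mem_bot] at ha
        rw [ha, map_zero]
    · exact A.man.itg_dg X h2 a (A.typ.le X (hk.trans (two_mul k).symm) ha)
  · rw [A.typ.odd X h1, Submodule.mem_bot] at ha
    rw [ha, map_zero]

theorem eq_zero_of_itg {x : C.H X} (h : ∀ y, C.itg X (x * y) = 0) : x = 0 := (A.pd X).2 x h

theorem eq_of_itg {x x' : C.H X} (h : ∀ y, C.itg X (x * y) = C.itg X (x' * y)) : x = x' :=
  sub_eq_zero.1 (eq_zero_of_itg A fun y => by rw [sub_mul, map_sub, h, sub_self])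

theorem eq_zero_of_dg {i j : ℕ} (hij : i + j = X.dim) {x : C.H X} (hx : x ∈ C.dg X i)
    (h : ∀ y ∈ C.dg X j, C.itg X (x * y) = 0) : x = 0 :=
  eq_zero_of_itg A (dg_ind A (fun k y hy => by
    by_cases hk : k = j
    · exact h y (hk ▸ hy)
    · exact A.man.itg_dg X (by omega) _ (A.man.dg_mul X hx hy))
    fun y z hy hz => by rw [mul_add, map_add, hy, hz, add_zero])

/-- a class which pairs only with degree `j` has degree `n - j` -/
theorem mem_dg {i j : ℕ} (hij : i + j = X.dim) {x : C.H X}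
    (h : ∀ k, k ≠ j → ∀ y ∈ C.dg X k, C.itg X (x * y) = 0) : x ∈ C.dg X i := by
  classical
  letI := (A.man.dg_int X).chooseDecomposition
  rw [← DirectSum.sum_support_decompose (C.dg X) x]
  refine Submodule.sum_mem _ fun k _ => ?_
  by_cases hk : k = i
  · exact hk ▸ (DirectSum.decompose (C.dg X) x k).2
  rcases Nat.lt_or_ge X.dim k with h1 | h1
  · have h2 := (DirectSum.decompose (C.dg X) x k).2
    rw [(Submodule.eq_bot_iff _).1 (A.man.dg_gt X h1) _ h2]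
    exact zero_mem _
  obtain ⟨l, hl⟩ := Nat.exists_eq_add_of_le h1
  rw [eq_zero_of_dg A hl.symm (DirectSum.decompose (C.dg X) x k).2 fun y hy => ?_]
  · exact zero_mem _
  have h2 := h l (by omega) y hy
  rw [← DirectSum.sum_support_decompose (C.dg X) x, Finset.sum_mul, map_sum,
    Finset.sum_eq_single k] at h2
  · exact h2
  · intro m _ hm
    exact A.man.itg_dg X (by omega) _ (A.man.dg_mul X (DirectSum.decompose (C.dg X) x m).2 hy)
  · intro h3
    rw [DFinsupp.notMem_support_iff.1 h3, Submodule.coe_zero, zero_mul, map_zero]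

/-- a class which pairs only with type `(p', q')` has type `(n - p', n - q')` -/
theorem mem_typ {p q p' q' : ℕ} (hp : p + p' = X.dim) (hq : q + q' = X.dim) {x : C.H X}
    (h : ∀ i j, i ≠ p' ∨ j ≠ q' → ∀ y ∈ C.typ X i j, C.itg X (x * y) = 0) : x ∈ C.typ X p q := by
  classical
  letI := (A.typ.int X).chooseDecomposition
  let D := DirectSum.decompose (fun pq : ℕ × ℕ => C.typ X pq.1 pq.2) x
  have h0 : ∑ k ∈ D.support, (D k : C.H X) = x := DirectSum.sum_support_decompose _ x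
  rw [← h0]
  refine Submodule.sum_mem _ fun k _ => ?_
  by_cases hk : k = (p, q)
  · subst hk
    exact (D (p, q)).2
  suffices h5 : (D k : C.H X) = 0 from h5 ▸ zero_mem _
  refine eq_zero_of_itg A (typ_ind A (fun i j y hy => ?_)
    fun y z hy hz => by rw [mul_add, map_add, hy, hz, add_zero])
  by_cases h1 : k.1 + i ≠ X.dim ∨ k.2 + j ≠ X.dim
  · exact itg_typ A h1 (A.typ.mul X (D k).2 hy)
  have h2 := h i j (by
    by_contra h3
    exact hk (Prod.ext (by omega) (by omega))) y hy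
  rw [← h0, Finset.sum_mul, map_sum, Finset.sum_eq_single k] at h2
  · exact h2
  · intro m _ hm
    refine itg_typ A ?_ (A.typ.mul X (D m).2 hy)
    by_contra h3
    exact hm (Prod.ext (by omega) (by omega))
  · intro h3
    rw [DFinsupp.notMem_support_iff.1 h3, Submodule.coe_zero, zero_mul, map_zero]

theorem dg_le_typ (k : ℕ) : C.dg X k ≤ ⨆ (p : ℕ) (q : ℕ) (_ : p + q = 2 * k), C.typ X p q := by
  intro x hx
  have h1 : ∀ y : C.H X, ∃ s ∈ ⨆ (p : ℕ) (q : ℕ) (_ : p + q = 2 * k), C.typ X p q,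
      ∃ r ∈ ⨆ (j : ℕ) (_ : j ≠ k), C.dg X j, y = s + r := by
    refine typ_ind A (fun i j y hy => ?_) ?_
    · by_cases h2 : i + j = 2 * k
      · exact ⟨y, Submodule.mem_iSup_of_mem i (Submodule.mem_iSup_of_mem j
          (Submodule.mem_iSup_of_mem h2 hy)), 0, zero_mem _, (add_zero y).symm⟩
      refine ⟨0, zero_mem _, y, ?_, (zero_add y).symm⟩
      rcases Nat.even_or_odd (i + j) with ⟨l, hl⟩ | h3
      · exact Submodule.mem_iSup_of_mem l (Submodule.mem_iSup_of_mem (by omega)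
          (A.typ.le X (hl.trans (two_mul l).symm) hy))
      · rw [A.typ.odd X h3, Submodule.mem_bot] at hy
        exact hy ▸ zero_mem _
    · rintro _ _ ⟨s, hs, r, hr, rfl⟩ ⟨s', hs', r', hr', rfl⟩
      exact ⟨_, add_mem hs hs', _, add_mem hr hr', add_add_add_comm _ _ _ _⟩
  obtain ⟨s, hs, r, hr, h2⟩ := h1 x
  have h5 : (⨆ (p : ℕ) (q : ℕ) (_ : p + q = 2 * k), C.typ X p q) ≤ C.dg X k :=
    iSup_le fun p => iSup_le fun q => iSup_le fun h => A.typ.le X h
  have h3 : s ∈ C.dg X k := h5 hs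
  have h4 : r = 0 := (Submodule.disjoint_def.1 ((A.man.dg_int X).submodule_iSupIndep k)) r
    (by rw [eq_sub_of_add_eq' h2.symm]; exact sub_mem hx h3) hr
  rwa [h2, h4, add_zero]

theorem dec_one {x : C.H X} (hx : x ∈ C.dg X 1) :
    ∃ a ∈ C.typ X 2 0, ∃ b ∈ C.typ X 1 1, ∃ c ∈ C.typ X 0 2, x = a + b + c := by
  have h1 : (⨆ (p : ℕ) (q : ℕ) (_ : p + q = 2 * 1), C.typ X p q) ≤
      C.typ X 2 0 ⊔ C.typ X 1 1 ⊔ C.typ X 0 2 := by
    refine iSup_le fun p => iSup_le fun q => iSup_le fun h => ?_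
    obtain ⟨rfl, rfl⟩ | ⟨rfl, rfl⟩ | ⟨rfl, rfl⟩ :
      (p = 2 ∧ q = 0) ∨ (p = 1 ∧ q = 1) ∨ (p = 0 ∧ q = 2) := by omega
    · exact le_sup_of_le_left le_sup_left
    · exact le_sup_of_le_left le_sup_right
    · exact le_sup_right
  obtain ⟨y, hy, c, hc, rfl⟩ := Submodule.mem_sup.1 (h1 (dg_le_typ A 1 hx))
  obtain ⟨a, ha, b, hb, rfl⟩ := Submodule.mem_sup.1 hy
  exact ⟨a, ha, b, hb, c, hc, rfl⟩

/-! ### push-forward -/

theorem push_adj (μ : Coh.Hom X Y) (a : C.H X) (b : C.H Y) :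
    C.itg Y (C.push μ a * b) = C.itg X (a * C.pb μ b) := by
  haveI := (A.pd Y).1
  have h1 : LinearMap.ker (C.prg Y) = ⊥ := LinearMap.ker_eq_bot'.2 fun x hx =>
    eq_zero_of_itg A fun y => LinearMap.congr_fun hx y
  obtain ⟨z, hz⟩ := (LinearMap.injective_iff_surjective_of_finrank_eq_finrank
    (Subspace.dual_finrank_eq (V := C.H Y)).symm).1 (LinearMap.ker_eq_bot.1 h1)
    ((C.pb μ).toLinearMap.dualMap (C.prg X a))
  have h2 : C.push μ a = z := by
    show (C.prg Y).leftInverse ((C.pb μ).toLinearMap.dualMap (C.prg X a)) = z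
    rw [← hz, LinearMap.leftInverse_apply_of_inj h1]
  rw [h2]
  exact LinearMap.congr_fun hz b

theorem itg_push (μ : Coh.Hom X Y) (a : C.H X) : C.itg Y (C.push μ a) = C.itg X a := by
  simpa using push_adj A μ a 1

theorem push_mul (μ : Coh.Hom X Y) (a : C.H X) (b : C.H Y) :
    C.push μ (a * C.pb μ b) = C.push μ a * b :=
  eq_of_itg A fun y => by
    rw [push_adj A, mul_assoc, mul_assoc, push_adj A, map_mul (C.pb μ)]

theorem push_comp (μ : Coh.Hom Y Z) (ν : Coh.Hom X Y) (a : C.H X) :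
    C.push (Mor.comp μ ν) a = C.push μ (C.push ν a) :=
  eq_of_itg A fun y => by rw [push_adj A, push_adj A, push_adj A, A.man.pb_comp]

theorem push_dg (μ : Coh.Hom X Y) {i j : ℕ} (h : i + Y.dim = j + X.dim) {a : C.H X}
    (ha : a ∈ C.dg X i) : C.push μ a ∈ C.dg Y j := by
  rcases Nat.lt_or_ge Y.dim j with h1 | h1
  · rw [(Submodule.eq_bot_iff _).1 (A.man.dg_gt X (show X.dim < i by omega)) a ha, map_zero]
    exact zero_mem _
  obtain ⟨l, hl⟩ := Nat.exists_eq_add_of_le h1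
  refine mem_dg A hl.symm fun k hk y hy => ?_
  rw [push_adj A]
  exact A.man.itg_dg X (by omega) _ (A.man.dg_mul X ha (A.man.pb_dg μ y hy))

theorem push_typ (μ : Coh.Hom X Y) {p q p' q' : ℕ} (hp : p + Y.dim = p' + X.dim)
    (hq : q + Y.dim = q' + X.dim) {a : C.H X} (ha : a ∈ C.typ X p q) :
    C.push μ a ∈ C.typ Y p' q' := by
  rcases Nat.lt_or_ge Y.dim p' with h1 | h1
  · rw [(Submodule.eq_bot_iff _).1 (A.typ.gt X q (show X.dim < p by omega)) a ha, map_zero]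
    exact zero_mem _
  rcases Nat.lt_or_ge Y.dim q' with h2 | h2
  · rw [(Submodule.eq_bot_iff _).1 (typ_gt' A p (show X.dim < q by omega)) a ha, map_zero]
    exact zero_mem _
  obtain ⟨l, hl⟩ := Nat.exists_eq_add_of_le h1
  obtain ⟨l', hl'⟩ := Nat.exists_eq_add_of_le h2
  refine mem_typ A hl.symm hl'.symm fun i j hij y hy => ?_
  rw [push_adj A]
  exact itg_typ A (by omega) (A.typ.mul X ha (A.typ.pb μ y hy))

theorem push_cj (μ : Coh.Hom X Y) (a : C.H X) : C.push μ (C.cj X a) = C.cj Y (C.push μ a) :=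
  eq_of_itg A fun y => by
    rw [← A.man.cj_cj Y y, ← map_mul, A.man.cj_itg, push_adj A, push_adj A, A.man.cj_pb,
      ← map_mul, A.man.cj_itg]

/-! ### dominant morphisms -/

theorem pb_c1 {μ : Coh.Hom X Y} {α : Y.F →ₐ[ℂ] X.F} (h : μ.p = Plc.ofHom α) {a : BD ℂ Y.F}
    (ha : a ∈ Y.On) : C.pb μ (C.c1 Y a) = C.c1 X (BD.pb α a) :=
  A.man.c1_pb μ a ha _ ⟨1, fun x g hg => by
    have := hg.pb h
    rwa [div_one, h]⟩

theorem pow_dg {a : C.H X} (ha : a ∈ C.dg X 1) (n : ℕ) : a ^ n ∈ C.dg X n := by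
  induction n with
  | zero => exact pow_zero a ▸ A.man.dg_one X
  | succ n ih => exact pow_succ a n ▸ A.man.dg_mul X ih ha

theorem top_eq_zero {z : C.H X} (hz : z ∈ C.dg X X.dim) (h : C.itg X z = 0) : z = 0 :=
  eq_zero_of_dg A (add_zero _) hz fun y hy => by
    obtain ⟨c, rfl⟩ := A.man.dg_zero X y hy
    rw [mul_comm, ← Algebra.smul_def, map_smul, h, smul_zero]

theorem itg_pow (a : BD ℂ X.F) (ha : a ∈ X.On) (n : ℕ) :
    C.itg X (C.c1 X a ^ n) = (bnum (List.replicate n a) : ℤ) := by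
  rw [← A.man.c1_num X _ fun b hb => (List.eq_of_mem_replicate hb).symm ▸ ha, List.map_replicate,
    List.prod_replicate]

theorem top_eq {z : C.H X} (hz : z ∈ C.dg X X.dim) : ∃ c : ℂ, z = c • C.hc X ^ X.dim := by
  have h1 := pow_dg A (A.man.c1_dg X _ oP_mem) X.dim
  by_cases h : C.itg X (C.hc X ^ X.dim) = 0
  · have h2 := A.hl X 0 X.dim (by simp) 1 (A.man.dg_one X) (by rw [mul_one, top_eq_zero A h1 h])
    exact ⟨0, by rw [zero_smul, ← mul_one z, h2, mul_zero]⟩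
  refine ⟨C.itg X z / C.itg X (C.hc X ^ X.dim), sub_eq_zero.1 (top_eq_zero A
    (sub_mem hz (Submodule.smul_mem _ _ h1)) ?_)⟩
  rw [map_sub, map_smul, smul_eq_mul, div_mul_cancel₀ _ h, sub_self]

/-- the degree formula -/
theorem itg_pb {μ : Coh.Hom X Y} {α : Y.F →ₐ[ℂ] X.F} (h : μ.p = Plc.ofHom α) (hd : X.dim = Y.dim)
    (z : C.H Y) : C.itg X (C.pb μ z) = deg α * C.itg Y z := by
  refine dg_ind A (p := fun z => C.itg X (C.pb μ z) = deg α * C.itg Y z) (fun k z hz => ?_)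
    (fun x y hx hy => by rw [map_add, map_add, map_add, hx, hy, mul_add]) z
  by_cases hk : k = Y.dim
  · obtain ⟨c, rfl⟩ := top_eq A (hk ▸ hz)
    rw [map_smul, map_smul, map_smul, map_pow, pb_c1 A h oP_mem, itg_pow A _ (pb_mem_On h oP_mem),
      itg_pow A _ oP_mem, ← List.map_replicate, bnum_pb, smul_eq_mul, smul_eq_mul]
    push_cast
    ring
  · rw [A.man.itg_dg Y hk z hz, A.man.itg_dg X (hd ▸ hk) _ (A.man.pb_dg μ z hz), mul_zero]

omit A in
theorem deg_of_surj {F E : Type} [Field F] [Field E] [Algebra ℂ F] [Algebra ℂ E] {α : F →ₐ[ℂ] E}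
    (h : Function.Surjective α) : deg α = 1 := by
  letI := α.toRingHom.toAlgebra
  exact Algebra.finrank_eq_one_iff_bijective_algebraMap.2 ⟨α.injective, h⟩

omit A in
theorem dim_of_bim {μ : Coh.Hom X Y} (h : Bim μ) : X.dim = Y.dim := by
  obtain ⟨α, -, h2⟩ := h
  exact (deg_pos_iff α).1 (deg_of_surj h2 ▸ one_pos)

theorem itg_bim {μ : Coh.Hom X Y} (h : Bim μ) (z : C.H Y) : C.itg X (C.pb μ z) = C.itg Y z := by
  have hd := dim_of_bim h
  obtain ⟨α, h1, h2⟩ := h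
  rw [itg_pb A h1 hd, deg_of_surj h2, Nat.cast_one, one_mul]

theorem push_pb_bim {μ : Coh.Hom X Y} (h : Bim μ) (z : C.H Y) : C.push μ (C.pb μ z) = z :=
  eq_of_itg A fun y => by rw [push_adj A, ← map_mul, itg_bim A h]

/-! ### the Hodge lattice -/

omit A in
variable (C X) in
/-- the intersection form -/
def Bf : LinearMap.BilinForm ℂ (C.dg X 1) := (C.prg X).domRestrict₁₂ (C.dg X 1) (C.dg X 1)

omit A in
theorem Bf_apply (x y : C.dg X 1) : Bf C X x y = C.itg X ((x : C.H X) * y) := rfl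

/-- integrality on surfaces -/
theorem itg_Lam (_h : X.dim = 2) {a b : C.H X} (ha : a ∈ C.Lam X) (hb : b ∈ C.Lam X) :
    ∃ m : ℤ, C.itg X (a * b) = m := by
  simpa using A.lam.itg X [a, b] (by simp [ha, hb])

/-- unimodularity -/
theorem mem_Lam (h : X.dim = 2) {x : C.H X} (hx : x ∈ C.dg X 1)
    (hi : ∀ y ∈ C.Lam X, ∃ k : ℤ, C.itg X (x * y) = k) : x ∈ C.Lam X := (A.uni X h).2 x hx hi

variable (X) in
/-- the Hodge lattice of a surface -/
def hl (h : X.dim = 2) : HL (C.dg X 1) where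
  B := Bf C X
  symm x y := by rw [Bf_apply, Bf_apply, mul_comm]
  nd x hx := Subtype.ext (eq_zero_of_dg A (j := 1) h.symm x.2 fun y hy => hx ⟨y, hy⟩)
  Λ := (C.Lam X).comap (C.dg X 1).subtype.toAddMonoidHom
  span := by
    refine Submodule.map_injective_of_injective (C.dg X 1).injective_subtype ?_
    rw [Submodule.map_subtype_top, Submodule.map_span]
    refine Eq.trans ?_ (A.uni X h).1
    congr 1
    exact Set.image_preimage_eq_of_subset fun a ha => ⟨⟨a, A.lam.dg X a ha⟩, rfl⟩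
  int x hx y hy := itg_Lam A h hx hy
  dual x hx := mem_Lam A h x.2 fun y hy => hx ⟨y, A.lam.dg X y hy⟩ hy
  O₁ := (C.typ X 2 0).comap (C.dg X 1).subtype
  M := (C.typ X 1 1).comap (C.dg X 1).subtype
  O₂ := (C.typ X 0 2).comap (C.dg X 1).subtype
  dec x := by
    obtain ⟨a, ha, b, hb, c, hc, h1⟩ := dec_one A x.2
    exact ⟨⟨a, A.typ.le X rfl ha⟩, ha, ⟨b, A.typ.le X rfl hb⟩, hb, ⟨c, A.typ.le X rfl hc⟩, hc,
      Subtype.ext h1⟩
  o11 x hx y hy := itg_typ A (by omega) (A.typ.mul X hx hy)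
  o22 x hx y hy := itg_typ A (by omega) (A.typ.mul X hx hy)
  o1M x hx y hy := itg_typ A (by omega) (A.typ.mul X hx hy)
  o2M x hx y hy := itg_typ A (by omega) (A.typ.mul X hx hy)

theorem fin_dg (k : ℕ) : FiniteDimensional ℂ (C.dg X k) :=
  haveI := (A.pd X).1
  inferInstance

theorem finrank_O₁ (h : X.dim = 2) : finrank ℂ (hl A X h).O₁ = finrank ℂ (C.typ X 2 0) :=
  (Submodule.comapSubtypeEquivOfLe (A.typ.le X (p := 2) (q := 0) (k := 1) rfl)).finrank_eq

/-! ### correspondences -/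

omit A in
variable (C) in
/-- integral and type preserving maps -/
structure Pre (f : C.H X →ₗ[ℂ] C.H Y) : Prop where
  int : ∀ a ∈ C.Lam X, f a ∈ C.Lam Y
  typ : ∀ p q, p + q = 2 → ∀ a ∈ C.typ X p q, f a ∈ C.typ Y p q

omit A in
variable (C X) in
/-- `x`, `y` are of type `(p, q)`, `(q, p)` or conversely -/
def Opp (p q : ℕ) (x y : C.H X) : Prop :=
  (x ∈ C.typ X p q ∧ y ∈ C.typ X q p) ∨ (x ∈ C.typ X q p ∧ y ∈ C.typ X p q)

omit A in
variable (C X Y) in
/-- two integral type preserving maps which multiply the pairing of two-forms by `N` -/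
def Rel (N : ℤ) : Prop := N ≠ 0 ∧ ∃ f g : C.H X →ₗ[ℂ] C.H Y, Pre C f ∧ Pre C g ∧
  ∀ x y, Opp C X 2 0 x y → C.itg Y (f x * g y) = N * C.itg X (x * y)

namespace Pre

variable {f : C.H X →ₗ[ℂ] C.H Y} {g : C.H Y →ₗ[ℂ] C.H Z}

omit A in
theorem comp (hf : Pre C f) (hg : Pre C g) : Pre C (g ∘ₗ f) :=
  ⟨fun a ha => hg.int _ (hf.int a ha), fun p q h a ha => hg.typ p q h _ (hf.typ p q h a ha)⟩

omit A in
theorem neg (hf : Pre C f) : Pre C (-f) :=
  ⟨fun a ha => neg_mem (hf.int a ha), fun p q h a ha => neg_mem (hf.typ p q h a ha)⟩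

theorem dg (hf : Pre C f) : ∀ a ∈ C.dg X 1, f a ∈ C.dg Y 1 := fun x hx => by
  obtain ⟨a, ha, b, hb, c, hc, rfl⟩ := dec_one A hx
  rw [map_add, map_add]
  exact add_mem (add_mem (A.typ.le Y rfl (hf.typ 2 0 rfl a ha))
    (A.typ.le Y rfl (hf.typ 1 1 rfl b hb))) (A.typ.le Y rfl (hf.typ 0 2 rfl c hc))

theorem hom (hf : Pre C f) (h : X.dim = 2) (h' : Y.dim = 2) :
    Hom (hl A X h) (hl A Y h') (f.restrict (hf.dg A)) :=
  ⟨fun x hx => hf.int x hx, fun x hx => hf.typ 2 0 rfl x hx, fun x hx => hf.typ 1 1 rfl x hx,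
    fun x hx => hf.typ 0 2 rfl x hx⟩

end Pre

theorem pre_pb (μ : Coh.Hom X Y) : Pre C (C.pb μ).toLinearMap :=
  ⟨A.lam.pb μ, fun _ _ _ => A.typ.pb μ⟩

theorem pre_push (μ : Coh.Hom X Y) (h : X.dim = 2) (h' : Y.dim = 2) : Pre C (C.push μ) :=
  ⟨fun a ha => mem_Lam A h' (push_dg A μ (by omega) (A.lam.dg X a ha)) fun y hy => by
      rw [push_adj A]
      exact itg_Lam A h ha (A.lam.pb μ y hy),
    fun _ _ _ _ ha => push_typ A μ (by omega) (by omega) ha⟩

namespace Rel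

variable {N N' : ℤ}

omit A in
theorem trans (r : Rel C X Y N) (r' : Rel C Y Z N') : Rel C X Z (N' * N) := by
  obtain ⟨h0, f, g, hf, hg, h⟩ := r
  obtain ⟨h0', f', g', hf', hg', h'⟩ := r'
  refine ⟨mul_ne_zero h0' h0, _, _, hf.comp hf', hg.comp hg', fun x y hxy => ?_⟩
  refine (h' (f x) (g y) (hxy.imp (fun h1 => ⟨hf.typ _ _ rfl _ h1.1, hg.typ _ _ rfl _ h1.2⟩)
    fun h1 => ⟨hf.typ _ _ rfl _ h1.1, hg.typ _ _ rfl _ h1.2⟩)).trans ?_
  rw [h x y hxy, Int.cast_mul, mul_assoc]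

theorem cor2 (r : Rel C X Y N) (h : X.dim = 2) (h' : Y.dim = 2) :
    ∃ ψ χ, Cor2 (hl A X h) (hl A Y h') ψ χ N := by
  obtain ⟨h0, f, g, hf, hg, h1⟩ := r
  exact ⟨_, _, hf.hom A h h', hg.hom A h h', h0, fun x hx y hy => h1 x y (Or.inl ⟨hx, hy⟩),
    fun x hx y hy => h1 x y (Or.inr ⟨hx, hy⟩)⟩

theorem pg_le (r : Rel C X Y N) (h : X.dim = 2) (h' : Y.dim = 2) :
    finrank ℂ (C.typ X 2 0) ≤ finrank ℂ (C.typ Y 2 0) := by
  obtain ⟨ψ, χ, c⟩ := r.cor2 A h h'
  haveI := fin_dg A (X := X) 1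
  haveI := fin_dg A (X := Y) 1
  rw [← finrank_O₁ A h, ← finrank_O₁ A h']
  exact c.finrank_O₁_le

theorem finrank_T (r : Rel C X Y N) (h : X.dim = 2) (h' : Y.dim = 2)
    (he : finrank ℂ (C.typ Y 2 0) ≤ finrank ℂ (C.typ X 2 0)) :
    finrank ℂ (hl A X h).T = finrank ℂ (hl A Y h').T := by
  obtain ⟨ψ, χ, c⟩ := r.cor2 A h h'
  haveI := fin_dg A (X := X) 1
  haveI := fin_dg A (X := Y) 1
  exact c.finrank_T (by rwa [finrank_O₁ A h, finrank_O₁ A h'])

theorem le (r : Rel C X Y N) (h : X.dim = 2) (h' : Y.dim = 2)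
    (he : finrank ℂ (C.typ Y 2 0) ≤ finrank ℂ (C.typ X 2 0)) {d d' : ℕ}
    (hd : (hl A X h).Pic1 d) (hd' : (hl A Y h').Pic1 d') : d' ≤ N.natAbs * d := by
  obtain ⟨ψ, χ, c⟩ := r.cor2 A h h'
  haveI := fin_dg A (X := X) 1
  haveI := fin_dg A (X := Y) 1
  exact c.le (by rwa [finrank_O₁ A h, finrank_O₁ A h']) hd hd'

end Rel

theorem rel_pb {μ : Coh.Hom X Y} {α : Y.F →ₐ[ℂ] X.F} (h : μ.p = Plc.ofHom α)
    (hd : X.dim = Y.dim) : Rel C Y X (deg α) :=
  ⟨Nat.cast_ne_zero.2 ((deg_pos_iff α).2 hd).ne', _, _, pre_pb A μ, pre_pb A μ, fun x y _ => by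
    rw [Int.cast_natCast, ← itg_pb A h hd, map_mul (C.pb μ)]
    rfl⟩

theorem rel_bim {μ : Coh.Hom X Y} (h : Bim μ) : Rel C Y X 1 := by
  have hd := dim_of_bim h
  obtain ⟨α, h1, h2⟩ := h
  have h3 := rel_pb A h1 hd
  rwa [deg_of_surj h2] at h3

theorem rel_push {μ : Coh.Hom X Y} (hμ : Bim μ) (h : X.dim = 2)
    (he : finrank ℂ (C.typ X 2 0) ≤ finrank ℂ (C.typ Y 2 0)) : Rel C X Y 1 := by
  have h' : Y.dim = 2 := (dim_of_bim hμ).symm.trans h
  haveI := (A.pd X).1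
  have h1 : ∀ x ∈ C.typ X 2 0, ∃ x₀, C.pb μ x₀ = x := by
    have h2 : Function.Injective ((C.pb μ).toLinearMap.domRestrict (C.typ Y 2 0)) :=
      fun a b hab => Subtype.ext (by
        rw [← push_pb_bim A hμ a, ← push_pb_bim A hμ b]
        exact congrArg _ hab)
    have h3 : (C.typ Y 2 0).map (C.pb μ).toLinearMap = C.typ X 2 0 :=
      Submodule.eq_of_le_of_finrank_le (Submodule.map_le_iff_le_comap.2 (A.typ.pb μ)) (by
        rwa [← LinearMap.range_domRestrict, LinearMap.finrank_range_of_inj h2])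
    intro x hx
    obtain ⟨y, -, hy⟩ : x ∈ (C.typ Y 2 0).map (C.pb μ).toLinearMap := h3.symm ▸ hx
    exact ⟨y, hy⟩
  refine ⟨one_ne_zero, _, _, pre_push A μ h h', pre_push A μ h h', fun x y hxy => ?_⟩
  rw [Int.cast_one, one_mul]
  rcases hxy with ⟨hx, -⟩ | ⟨-, hy⟩
  · obtain ⟨x, rfl⟩ := h1 x hx
    rw [push_pb_bim A hμ, mul_comm, push_adj A, mul_comm]
  · obtain ⟨y, rfl⟩ := h1 y hy
    rw [push_pb_bim A hμ, push_adj A]

end Crest.Agent.X262.Int23
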