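import Crest.Agent.X262.Int23.Tau
import Crest.Agent.X262.Form88.Snc

/-!
# Row 262, INT (helper23), part 6: base change of the Gysin map along an arbitrary morphism

* `exists_lpb`, `exists_dpb` : pull-back of line bundles and divisors along arbitrary morphisms;
* `bc_gen`, `bcg`, `bc_zero`.
-/

set_option autoImplicit false
set_option linter.style.haveILetI false

noncomputable section

namespace Crest.Agent.X262.Int23

open Module Crest.Agent.X262.Coh Crest.Agent.X277 Crest.Agent.X277.Lef Crest.Agent.X277.AN.G1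
  Crest.Agent.X277.BD Crest.Agent.X277.BD.Br

variable {D X B : SV} (u : Coh.Hom B X) {a : BD ℂ X.F}

theorem exists_lpb_free (ha : a ∈ X.On) (hf : Free a) (q₀ : B.Pt) :
    ∃ a' r, At a (u.map q₀) r ∧ LPbU u a a' r := by
  obtain ⟨n, s, -, h1, h2⟩ := hf.exists_fam
  have h3 : ∀ q : B.Pt, ∃ i, At a (u.map q) (s i) := fun q =>
    (ha (u.map q)).elim fun g hg => hg.exists_fam h1 h2
  obtain ⟨i₀, h0⟩ := h3 q₀
  refine ⟨mxf ℂ fun j => u.p.π (s j / s i₀), s i₀, h0, fun q g hg => ?_⟩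
  obtain ⟨i, hi⟩ := h3 q
  have h4 : ∀ j, s j / s i₀ ∈ u.p.O := fun j => u.mem_O (h0.div_mem (h1 j))
  have h5 : u.p.π (s i / s i₀) ≠ 0 := fun h5 => by
    have h6 := u.p.π_mul (h4 i) (u.mem_O (hi.div_mem (h1 i₀)))
    rw [h5, zero_mul, div_mul_div_cancel₀ h0.ne, div_self hi.ne, Plc.π_one] at h6
    exact one_ne_zero h6
  have h6 := at_mxf (x := q) (s := fun j => u.p.π (s j / s i₀)) h5 fun l => by
    rw [← Plc.π_div (h4 l) h5, div_div_div_cancel_right₀ h0.ne]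
    exact u.π_mem (hi.div_mem (h1 l))
  have h7 := hg.ev_div_ne hi
  have h8 := LP.mem_of_ne h7
  rw [u.ev_map h8] at h7
  have h9 := h6.mul_unit h7
  rwa [← u.p.π_mul (u.mem_O h8) (h4 i), div_mul_div_cancel₀ hi.ne] at h9

theorem exists_lpb (ha : a ∈ X.On) (q₀ : B.Pt) : ∃ a' r, At a (u.map q₀) r ∧ LPbU u a a' r := by
  obtain ⟨b, hb, N, hf, rfl⟩ := exists_sub_On ha
  have hc : N • oP X.P ∈ X.On := nsmul_mem oP_mem N
  obtain ⟨b', s, h1, h2⟩ := exists_lpb_free u hb hf q₀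
  obtain ⟨c', t, h3, h4⟩ := exists_lpb_free u hc (free_oP.nsmul N) q₀
  refine ⟨b' - c', s / t, h1.sub h3, fun q g hg => ?_⟩
  obtain ⟨t', ht⟩ := hc (u.map q)
  have h5 := h2 q _ (by simpa using hg.add ht)
  have h6 := h4 q _ ht
  have h7 := h5.sub h6
  rw [← Plc.π_div (Plc.mem_of_ne h5.ne) h6.ne] at h7
  convert h7 using 2
  have := ht.ne
  have := h1.ne
  have := h3.ne
  field_simp

theorem exists_dpb (ha : a ∈ X.On) {q₀ : B.Pt} (h : At a (u.map q₀) 1) : ∃ a', DPb u a a' := by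
  obtain ⟨a', r, h1, h2⟩ := exists_lpb u ha q₀
  have h3 := h1.ev_div_ne h
  rw [div_one] at h3
  have h4 := LP.mem_of_ne h3
  rw [u.ev_map h4] at h3
  refine ⟨a' + pr ℂ (u.p.π r), fun q g hg => ?_⟩
  have h5 := (h2 q g hg).add (at_pr q (LP.ne_zero_of_ne h3))
  rwa [← u.p.π_mul (Plc.mem_of_ne (h2 q g hg).ne) (u.mem_O h4), div_mul_cancel₀ _ h1.ne,
    ← div_one g] at h5

variable {u}

theorem dpb_nonneg {a' : BD ℂ B.F} (h : DPb u a a') (ha : a ∈ X.On) (h0 : 0 ≤ a) : 0 ≤ a' :=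
  le_of_at (P := B.P) fun q => by
    obtain ⟨g, hg⟩ := ha (u.map q)
    have h1 := h q g hg
    rw [div_one] at h1
    refine ⟨1, _, at_zero q, h1, ?_⟩
    rw [← u.p.π_one, ← Plc.π_div (one_mem _) h1.ne]
    exact u.π_mem ((at_zero _).div_mem_of_le hg h0)

variable {C : Th} (A : C.Ax)

include A

/-- **base change** -/
theorem bc_gen {j : Coh.Hom D X} (hj : IsDv j a) (u : Coh.Hom B X) :
    (∃ w : Coh.Hom B D, (Mor.comp j w).map = u.map ∧
      ∀ x, C.pb u (C.push j x) = C.pb u (C.c1 X a) * C.pb w x) ∨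
    ∃ (ι : Type) (_ : Fintype ι) (G : ι → SV) (v : ∀ i, Coh.Hom (G i) B)
      (w : ∀ i, Coh.Hom (G i) D) (m : ι → ℕ), (∀ i, (G i).dim + 1 = B.dim) ∧
      (∀ i, (Mor.comp j (w i)).map = (Mor.comp u (v i)).map) ∧
      ∀ x, C.pb u (C.push j x) = ∑ i, m i • C.push (v i) (C.pb (w i) x) := by
  classical
  by_cases h : ∀ q, u.map q ∈ Set.range j.map
  · obtain ⟨w, hw⟩ := Form88.exists_lift hj.emb u h
    refine Or.inl ⟨w, hw, fun x => ?_⟩
    rw [← A.man.pb_congr _ _ hw, A.man.pb_comp, A.man.pb_comp, A.bc2 j a hj, map_mul]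
  obtain ⟨q₀, h0⟩ := not_forall.1 h
  obtain ⟨a', h1⟩ := exists_dpb u hj.on (hj.off _ h0)
  obtain ⟨M, π, hπ, ι, _, G, v, e, h2, h3, h4⟩ := Form88.exists_snc B {a'}
  obtain ⟨-, m, h5, h6, h7⟩ := h4 a' (Finset.mem_singleton_self _)
  have h8 := h6 (dpb_nonneg h1 hj.on hj.nonneg)
  have h9 : DPb (X := sv M) (Mor.comp u π) a a' := fun q g hg => by
    have h9 := (h1 _ g (Mor.comp_map u π q ▸ hg)).pb hπ
    rw [pb_id] at h9
    show At a' q (π.p.π _)
    rwa [hπ]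
  have h10 : ∀ i, m i ≠ 0 → ∀ q, (Mor.comp (Mor.comp u π) (v i)).map q ∈ Set.range j.map := by
    intro i hi q
    by_contra hc
    rw [Mor.comp_map] at hc
    have h10 := h9 _ 1 (hj.off _ hc)
    rw [div_one, Plc.π_one] at h10
    exact hi (h7 i q h10)
  choose w hw using fun i : {i // m i ≠ 0} => Form88.exists_lift hj.emb _ (h10 i.1 i.2)
  have h11 : ∑ i : {i // m i ≠ 0}, (m i.1).toNat • e i.1 = a' := by
    rw [h5, ← Finset.sum_filter_of_ne (p := fun i => m i ≠ 0) fun i _ hi h0 =>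
      hi (by rw [h0, zero_smul]), Finset.sum_subtype (p := fun i => m i ≠ 0) _ (by simp)]
    exact Finset.sum_congr rfl fun i _ => by rw [← natCast_zsmul, Int.toNat_of_nonneg (h8 i.1)]
  refine Or.inr ⟨{i // m i ≠ 0}, inferInstance, fun i => G i.1, fun i => Mor.comp π (v i.1), w,
    fun i => (m i.1).toNat, fun i => h3 i.1, fun i => (hw i).trans (funext fun q => ?_), fun x => ?_⟩
  · simp only [Mor.comp_map]
  have h12 := A.bc1 j a (B := sv M) (Mor.comp u π) (fun i : {i // m i ≠ 0} => G i.1)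
    (fun i => v i.1) (fun i => e i.1) (fun i => (m i.1).toNat) w hj (fun i => h2 i.1)
    (h11.symm ▸ h9) hw x
  rw [← push_pb_bim A (Form88.bim_id hπ) (C.pb u _), ← A.man.pb_comp, h12, map_sum]
  exact Finset.sum_congr rfl fun i _ => by rw [map_nsmul, push_comp A]

theorem bcg : BCG C := fun _ a u hj =>
  (bc_gen A hj u).imp (fun ⟨w, _, h⟩ => ⟨_, A.lam.pb u _ (A.lam.c1 _ a hj.on), w, h⟩)
    fun ⟨ι, _, G, v, w, m, _, _, h⟩ => ⟨ι, _, G, v, w, m, h⟩

/-- the field `bc` of `Chn.Frm` -/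
theorem bc_zero (j : Coh.Hom D X) (a : BD ℂ X.F) (u : Coh.Hom B X) (hj : IsDv j a) (x : C.H D)
    (h : ∀ (G : SV) (v : Coh.Hom G B) (w : Coh.Hom G D),
      (Mor.comp j w).map = (Mor.comp u v).map → C.pb w x = 0) : C.pb u (C.push j x) = 0 := by
  rcases bc_gen A hj u with ⟨w, h1, h2⟩ | ⟨ι, _, G, v, w, m, -, h1, h2⟩
  · rw [h2, h B (idH B) w (h1.trans (funext fun q => by rw [Mor.comp_map, Cns.idM_map])), mul_zero]
  · rw [h2]
    exact Finset.sum_eq_zero fun i _ => by rw [h _ _ _ (h1 i), map_zero, smul_zero]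

theorem match_of (hM : MinStmt) : Chn.MatchStmt C := matchStmt A (bcg A) hM

theorem trans_of (hM : MinStmt) (hI : Hx56.IsoStmt C) : Chn.TransStmt C :=
  transStmt A (bcg A) hM hI

end Crest.Agent.X262.Int23
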