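import Mathlib

/-!
# Row 262, INT (helper23), part 1: Hodge lattices of surfaces and correspondences, abstract part

* `HL H`      : a unimodular lattice in `H` with a decomposition `H = O₁ + M + O₂` into types;
* `HL.T`      : the transcendental part, `HL.T_le` : it is the smallest rational subspace
  which contains `O₁` and `O₂`;
* `Corr h h' ψ` : integral, type preserving, isometric on `O₁ × O₂`; `Corr.comp`, `Corr.adj`;
* `Corr.map_T`, `Corr.iso`, `Corr.inj`, `Corr.onto`, `Corr.finrank_T`, `Corr.finrank_O₁`;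
* `HL.Pic1 h d` : the integral classes of type `(1,1)` are the multiples of a class of square `d`;
* `Corr.dvd`  : the degree of the target divides the degree of the source.
-/

set_option autoImplicit false

namespace Crest.Agent.X262.Int23

open Module

/-- a unimodular lattice with a Hodge decomposition of weight two -/
structure HL (H : Type*) [AddCommGroup H] [Module ℂ H] where
  /-- the intersection form -/
  B : LinearMap.BilinForm ℂ H
  symm : ∀ x y, B x y = B y x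
  nd : ∀ x, (∀ y, B x y = 0) → x = 0
  /-- the integral classes -/
  Λ : AddSubgroup H
  span : Submodule.span ℂ (Λ : Set H) = ⊤
  int : ∀ x ∈ Λ, ∀ y ∈ Λ, ∃ k : ℤ, B x y = k
  dual : ∀ x, (∀ y ∈ Λ, ∃ k : ℤ, B x y = k) → x ∈ Λ
  /-- type `(2,0)` -/
  O₁ : Submodule ℂ H
  /-- type `(1,1)` -/
  M : Submodule ℂ H
  /-- type `(0,2)` -/
  O₂ : Submodule ℂ H
  dec : ∀ x, ∃ a ∈ O₁, ∃ b ∈ M, ∃ c ∈ O₂, x = a + b + c
  o11 : ∀ x ∈ O₁, ∀ y ∈ O₁, B x y = 0
  o22 : ∀ x ∈ O₂, ∀ y ∈ O₂, B x y = 0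
  o1M : ∀ x ∈ O₁, ∀ y ∈ M, B x y = 0
  o2M : ∀ x ∈ O₂, ∀ y ∈ M, B x y = 0

variable {H H' H'' : Type*} [AddCommGroup H] [Module ℂ H] [AddCommGroup H'] [Module ℂ H']
  [AddCommGroup H''] [Module ℂ H'']

/-- the common kernel of functionals which are integral on a spanning subgroup is spanned by
elements of the subgroup -/
theorem mem_span_of_int {Λ : AddSubgroup H} (hs : Submodule.span ℂ (Λ : Set H) = ⊤)
    {ι : Type*} {φ : ι → H →ₗ[ℂ] ℂ} (hφ : ∀ i, ∀ y ∈ Λ, ∃ k : ℤ, φ i y = k) {x : H}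
    (hx : ∀ i, φ i x = 0) : x ∈ Submodule.span ℂ {y | y ∈ Λ ∧ ∀ i, φ i y = 0} := by
  classical
  obtain ⟨r, c, v, rfl⟩ := Submodule.mem_span_set'.1 (hs ▸ Submodule.mem_top (x := x))
  let e := Basis.ofVectorSpace ℚ ℂ
  let s := Finset.univ.biUnion fun j => (e.repr (c j)).support
  have h1 : ∀ j, c j = ∑ k ∈ s, (e.repr (c j) k : ℂ) * e k := fun j => by
    conv_lhs => rw [← e.linearCombination_repr (c j)]
    rw [Finsupp.linearCombination_apply, Finsupp.sum_of_support_subset _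
      (Finset.subset_biUnion_of_mem (fun j => (e.repr (c j)).support) (Finset.mem_univ j))
      (fun i a => a • e i) (fun _ _ => zero_smul _ _)]
    exact Finset.sum_congr rfl fun k _ => Rat.smul_def _ _
  have h2 : ∑ j, c j • (v j : H) = ∑ k ∈ s, e k • ∑ j, (e.repr (c j) k : ℂ) • (v j : H) := by
    simp only [Finset.smul_sum, smul_smul]
    rw [Finset.sum_comm]
    refine Finset.sum_congr rfl fun j _ => ?_
    rw [← Finset.sum_smul]
    congr 1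
    exact (h1 j).trans (Finset.sum_congr rfl fun k _ => mul_comm _ _)
  rw [h2]
  refine Submodule.sum_mem _ fun k _ => Submodule.smul_mem _ _ ?_
  have h3 : ∀ i, φ i (∑ j, (e.repr (c j) k : ℂ) • (v j : H)) = 0 := by
    intro i
    choose m hm using fun j => hφ i (v j) (v j).2
    have h4 := congrArg (fun z => e.repr z k) (hx i)
    simp only [map_sum, map_smul, hm, smul_eq_mul, map_zero, Finsupp.coe_finsetSum,
      Finset.sum_apply, Finsupp.zero_apply] at h4 ⊢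
    have h5 : ∀ j, e.repr (c j * m j) k = e.repr (c j) k * m j := fun j => by
      rw [mul_comm, ← zsmul_eq_mul, map_zsmul, Finsupp.smul_apply, zsmul_eq_mul, mul_comm]
    simp only [h5] at h4
    exact_mod_cast h4
  obtain ⟨N, hN, hq⟩ : ∃ N : ℕ, N ≠ 0 ∧ ∀ j, ∃ m : ℤ, (N : ℚ) * e.repr (c j) k = m := by
    refine ⟨∏ j, (e.repr (c j) k).den, Finset.prod_ne_zero_iff.2 fun j _ => Rat.den_ne_zero _,
      fun j => ?_⟩
    refine ⟨(∏ l ∈ Finset.univ.erase j, ((e.repr (c l) k).den : ℤ)) * (e.repr (c j) k).num, ?_⟩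
    rw [← Finset.mul_prod_erase _ _ (Finset.mem_univ j)]
    push_cast
    rw [mul_comm ((e.repr (c j) k).den : ℚ), mul_assoc, Rat.den_mul_eq_num]
  choose m hm using hq
  have h6 : (N : ℂ) • ∑ j, (e.repr (c j) k : ℂ) • (v j : H) = ∑ j, m j • (v j : H) := by
    rw [Finset.smul_sum]
    refine Finset.sum_congr rfl fun j _ => ?_
    rw [smul_smul, ← Int.cast_smul_eq_zsmul ℂ]
    congr 1
    exact_mod_cast hm j
  refine (Submodule.smul_mem_iff _ (Nat.cast_ne_zero.2 hN : (N : ℂ) ≠ 0)).1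
    (Submodule.subset_span ⟨?_, fun i => by rw [map_smul, h3, smul_zero]⟩)
  rw [h6]
  exact sum_mem fun j _ => zsmul_mem (v j).2 _

namespace HL

variable (h : HL H)

/-- the transcendental part -/
def T : Submodule ℂ H where
  carrier := {x | ∀ n ∈ h.Λ, n ∈ h.M → h.B x n = 0}
  add_mem' ha hb n h1 h2 := by rw [map_add, LinearMap.add_apply, ha n h1 h2, hb n h1 h2, add_zero]
  zero_mem' n _ _ := by simp
  smul_mem' c x hx n h1 h2 := by rw [map_smul, LinearMap.smul_apply, hx n h1 h2, smul_zero]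

/-- the integral classes of type `(1,1)` are the multiples of a class of square `d` -/
def Pic1 (d : ℕ) : Prop :=
  d ≠ 0 ∧ ∃ L ∈ h.Λ, L ∈ h.M ∧ h.B L L = d ∧ ∀ n ∈ h.Λ, n ∈ h.M → ∃ c : ℤ, n = c • L

variable {h}

theorem mem_T {x : H} : x ∈ h.T ↔ ∀ n ∈ h.Λ, n ∈ h.M → h.B x n = 0 := Iff.rfl

theorem O₁_le_T : h.O₁ ≤ h.T := fun x hx n _ hn => h.o1M x hx n hn

theorem O₂_le_T : h.O₂ ≤ h.T := fun x hx n _ hn => h.o2M x hx n hn

theorem eq_of_B {x y : H} (hx : ∀ z, h.B x z = h.B y z) : x = y :=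
  sub_eq_zero.1 (h.nd _ fun z => by rw [map_sub, LinearMap.sub_apply, hx, sub_self])

theorem mem_M {x : H} (h1 : ∀ y ∈ h.O₁, h.B x y = 0) (h2 : ∀ y ∈ h.O₂, h.B x y = 0) :
    x ∈ h.M := by
  obtain ⟨a, ha, b, hb, c, hc, rfl⟩ := h.dec x
  have h3 : a + c = 0 := h.nd _ fun y => by
    obtain ⟨a', ha', b', hb', c', hc', rfl⟩ := h.dec y
    have h4 := h1 a' ha'
    have h5 := h2 c' hc'
    simp only [map_add, LinearMap.add_apply] at h4 h5 ⊢
    rw [h.symm b, h.o1M a' ha' b hb] at h4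
    rw [h.symm b, h.o2M c' hc' b hb] at h5
    rw [h.o1M a ha b' hb', h.o2M c hc b' hb']
    linear_combination h4 + h5
  rwa [add_right_comm, h3, zero_add]

theorem mem_O₁ {x : H} (h1 : ∀ y ∈ h.O₁, h.B x y = 0) (h2 : ∀ y ∈ h.M, h.B x y = 0) :
    x ∈ h.O₁ := by
  obtain ⟨a, ha, b, hb, c, hc, rfl⟩ := h.dec x
  have h3 : b + c = 0 := h.nd _ fun y => by
    obtain ⟨a', ha', b', hb', c', hc', rfl⟩ := h.dec y
    have h4 := h1 a' ha'
    have h5 := h2 b' hb'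
    simp only [map_add, LinearMap.add_apply] at h4 h5 ⊢
    rw [h.o11 a ha a' ha'] at h4
    rw [h.o1M a ha b' hb'] at h5
    rw [h.symm b c', h.o2M c' hc' b hb, h.o22 c hc c' hc']
    linear_combination h4 + h5
  rwa [add_assoc, h3, add_zero]

theorem mem_O₂ {x : H} (h1 : ∀ y ∈ h.O₂, h.B x y = 0) (h2 : ∀ y ∈ h.M, h.B x y = 0) :
    x ∈ h.O₂ := by
  obtain ⟨a, ha, b, hb, c, hc, rfl⟩ := h.dec x
  have h3 : a + b = 0 := h.nd _ fun y => by
    obtain ⟨a', ha', b', hb', c', hc', rfl⟩ := h.dec y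
    have h4 := h1 c' hc'
    have h5 := h2 b' hb'
    simp only [map_add, LinearMap.add_apply] at h4 h5 ⊢
    rw [h.o22 c hc c' hc'] at h4
    rw [h.o2M c hc b' hb'] at h5
    rw [h.symm b a', h.o1M a' ha' b hb, h.o11 a ha a' ha']
    linear_combination h4 + h5
  rwa [h3, zero_add]

theorem eq_zero_of_O₁ {x : H} (hx : x ∈ h.O₁) (h2 : ∀ y ∈ h.O₂, h.B x y = 0) : x = 0 :=
  h.nd _ fun y => by
    obtain ⟨a, ha, b, hb, c, hc, rfl⟩ := h.dec y
    rw [map_add, map_add, h.o11 x hx a ha, h.o1M x hx b hb, h2 c hc, add_zero, add_zero]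

theorem eq_zero_of_O₂ {x : H} (hx : x ∈ h.O₂) (h2 : ∀ y ∈ h.O₁, h.B x y = 0) : x = 0 :=
  h.nd _ fun y => by
    obtain ⟨a, ha, b, hb, c, hc, rfl⟩ := h.dec y
    rw [map_add, map_add, h.o22 x hx c hc, h.o2M x hx b hb, h2 a ha, add_zero, add_zero]

theorem T_le_span : h.T ≤ Submodule.span ℂ {y | y ∈ h.Λ ∧ y ∈ h.T} := by
  intro x hx
  have h1 := mem_span_of_int h.span (ι := {n // n ∈ h.Λ ∧ n ∈ h.M}) (φ := fun n => h.B n.1)
    (fun n y hy => h.int _ n.2.1 y hy) (x := x) fun n => by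
      rw [h.symm]
      exact hx _ n.2.1 n.2.2
  refine Submodule.span_mono ?_ h1
  refine fun y hy => ⟨hy.1, fun n h2 h3 => ?_⟩
  rw [h.symm]
  exact hy.2 ⟨n, h2, h3⟩

variable [FiniteDimensional ℂ H]

/-- the transcendental part is the smallest rational subspace containing `O₁` and `O₂` -/
theorem T_le {S : Set H} (hS : ∀ y ∈ S, y ∈ h.Λ) (h1 : h.O₁ ≤ Submodule.span ℂ S)
    (h2 : h.O₂ ≤ Submodule.span ℂ S) : h.T ≤ Submodule.span ℂ S := by
  have hr : h.B.IsRefl := fun x y hxy => by rwa [h.symm]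
  have hn : h.B.Nondegenerate := ⟨h.nd, fun x hx => h.nd x fun y => by rw [h.symm]; exact hx y⟩
  intro x hx
  rw [← LinearMap.BilinForm.orthogonal_orthogonal hn hr (Submodule.span ℂ S)]
  intro y hy
  have h3 := mem_span_of_int h.span (ι := S) (φ := fun s => h.B s.1)
    (fun s z hz => h.int _ (hS _ s.2) z hz) (x := y) fun s => hy _ (Submodule.subset_span s.2)
  show h.B y x = 0
  rw [h.symm]
  refine Submodule.span_induction (p := fun y _ => h.B x y = 0) ?_ (map_zero _)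
    (fun a b _ _ ha hb => by rw [map_add, ha, hb, add_zero])
    (fun c a _ ha => by rw [map_smul, ha, smul_zero]) h3
  rintro n ⟨h4, h5⟩
  have h6 : ∀ z ∈ Submodule.span ℂ S, h.B n z = 0 := fun z hz =>
    Submodule.span_induction (p := fun z _ => h.B n z = 0)
      (fun s hs => by rw [h.symm]; exact h5 ⟨s, hs⟩) (map_zero _)
      (fun a b _ _ ha hb => by rw [map_add, ha, hb, add_zero])
      (fun c a _ ha => by rw [map_smul, ha, smul_zero]) hz
  exact hx n h4 (mem_M (fun z hz => h6 z (h1 hz)) fun z hz => h6 z (h2 hz))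

/-- an integral functional which kills `O₁` and `O₂` kills the transcendental part -/
theorem kill_T {φ : H →ₗ[ℂ] ℂ} (hφ : ∀ y ∈ h.Λ, ∃ k : ℤ, φ y = k) (h1 : ∀ y ∈ h.O₁, φ y = 0)
    (h2 : ∀ y ∈ h.O₂, φ y = 0) {x : H} (hx : x ∈ h.T) : φ x = 0 := by
  have h3 : ∀ y, φ y = 0 → y ∈ Submodule.span ℂ {y | y ∈ h.Λ ∧ ∀ _ : Unit, φ y = 0} :=
    fun y hy => mem_span_of_int h.span (φ := fun _ : Unit => φ) (fun _ => hφ) fun _ => hy
  have h4 := T_le (S := {y | y ∈ h.Λ ∧ ∀ _ : Unit, φ y = 0}) (fun y hy => hy.1)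
    (fun y hy => h3 y (h1 y hy)) (fun y hy => h3 y (h2 y hy)) hx
  exact Submodule.span_induction (p := fun y _ => φ y = 0) (fun y hy => hy.2 ()) (map_zero _)
    (fun a b _ _ ha hb => by rw [map_add, ha, hb, add_zero])
    (fun c a _ ha => by rw [map_smul, ha, smul_zero]) h4

theorem O₁_ne_bot (hT : h.T ≠ ⊥) : h.O₁ ≠ ⊥ := by
  intro h1
  have h2 : h.O₂ = ⊥ := (Submodule.eq_bot_iff _).2 fun x hx => eq_zero_of_O₂ hx fun y hy => by
    rw [h1, Submodule.mem_bot] at hy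
    rw [hy, map_zero]
  refine hT (le_bot_iff.1 ?_)
  have h3 := T_le (h := h) (S := ∅) (by simp) (by simp [h1]) (by simp [h2])
  rwa [Submodule.span_empty] at h3

theorem finrank_O₂_le : finrank ℂ h.O₂ ≤ finrank ℂ h.O₁ := by
  rw [← Subspace.dual_finrank_eq (V := h.O₁)]
  refine LinearMap.finrank_le_finrank_of_injective (f := h.B.domRestrict₁₂ h.O₂ h.O₁)
    ((injective_iff_map_eq_zero _).2 fun x hx => Subtype.ext (eq_zero_of_O₂ x.2 fun y hy => ?_))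
  exact congrArg (fun f : h.O₁ →ₗ[ℂ] ℂ => f ⟨y, hy⟩) hx

theorem finrank_O₁_le : finrank ℂ h.O₁ ≤ finrank ℂ h.O₂ := by
  rw [← Subspace.dual_finrank_eq (V := h.O₂)]
  refine LinearMap.finrank_le_finrank_of_injective (f := h.B.domRestrict₁₂ h.O₁ h.O₂)
    ((injective_iff_map_eq_zero _).2 fun x hx => Subtype.ext (eq_zero_of_O₁ x.2 fun y hy => ?_))
  exact congrArg (fun f : h.O₂ →ₗ[ℂ] ℂ => f ⟨y, hy⟩) hx

theorem finrank_O₂ : finrank ℂ h.O₂ = finrank ℂ h.O₁ := le_antisymm finrank_O₂_le finrank_O₁_le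

omit [FiniteDimensional ℂ H] in
/-- the generator is primitive -/
theorem exists_dual {L : H} (hL : L ∈ h.Λ) (hM : L ∈ h.M) (h0 : h.B L L ≠ 0)
    (hg : ∀ n ∈ h.Λ, n ∈ h.M → ∃ c : ℤ, n = c • L) : ∃ γ ∈ h.Λ, h.B L γ = 1 := by
  let I : Ideal ℤ :=
    { carrier := {k | ∃ y ∈ h.Λ, h.B L y = k}
      add_mem' := by
        rintro a b ⟨y, hy, h1⟩ ⟨z, hz, h2⟩
        exact ⟨y + z, add_mem hy hz, by rw [map_add, h1, h2, Int.cast_add]⟩
      zero_mem' := ⟨0, zero_mem _, by simp⟩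
      smul_mem' := by
        rintro c a ⟨y, hy, h1⟩
        exact ⟨c • y, zsmul_mem hy c, by rw [map_zsmul, h1, smul_eq_mul, zsmul_eq_mul,
          Int.cast_mul]⟩ }
  obtain ⟨k, hk⟩ := (IsPrincipalIdealRing.principal I).principal
  have h1 : ∀ y ∈ h.Λ, ∃ m : ℤ, h.B L y = (m * k : ℤ) := fun y hy => by
    obtain ⟨m, hm⟩ := h.int L hL y hy
    have h2 : m ∈ I := ⟨y, hy, hm⟩
    rw [hk] at h2
    obtain ⟨c, hc⟩ := Ideal.mem_span_singleton'.1 h2
    exact ⟨c, by rw [hm, hc]⟩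
  have hk0 : (k : ℂ) ≠ 0 := fun h2 => h0 (by
    obtain ⟨m, hm⟩ := h1 L hL
    rw [hm, Int.cast_mul, h2, mul_zero])
  obtain ⟨c, hc⟩ := hg ((k : ℂ)⁻¹ • L) (h.dual _ fun y hy => by
    obtain ⟨m, hm⟩ := h1 y hy
    refine ⟨m, ?_⟩
    rw [map_smul, LinearMap.smul_apply, hm, smul_eq_mul, Int.cast_mul]
    field_simp) (h.M.smul_mem _ hM)
  have h2 : (c : ℂ) * k = 1 := by
    have h3 := congrArg (h.B L) hc
    rw [map_smul, map_zsmul, smul_eq_mul, zsmul_eq_mul] at h3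
    rw [← mul_right_cancel₀ h0 h3, inv_mul_cancel₀ hk0]
  obtain ⟨y, hy, h3⟩ : k ∈ I := hk ▸ Ideal.mem_span_singleton_self k
  exact ⟨c • y, zsmul_mem hy c, by rw [map_zsmul, h3, zsmul_eq_mul, h2]⟩

end HL

/-- an integral map which preserves the types and the pairing of `O₁` with `O₂` -/
structure Corr (h : HL H) (h' : HL H') (ψ : H →ₗ[ℂ] H') : Prop where
  int : ∀ x ∈ h.Λ, ψ x ∈ h'.Λ
  o1 : ∀ x ∈ h.O₁, ψ x ∈ h'.O₁
  m : ∀ x ∈ h.M, ψ x ∈ h'.M
  o2 : ∀ x ∈ h.O₂, ψ x ∈ h'.O₂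
  pair : ∀ x ∈ h.O₁, ∀ y ∈ h.O₂, h'.B (ψ x) (ψ y) = h.B x y

namespace Corr

variable {h : HL H} {h' : HL H'} {h'' : HL H''} {ψ : H →ₗ[ℂ] H'} {χ : H' →ₗ[ℂ] H''}

theorem comp (c : Corr h h' ψ) (c' : Corr h' h'' χ) : Corr h h'' (χ ∘ₗ ψ) where
  int x hx := c'.int _ (c.int x hx)
  o1 x hx := c'.o1 _ (c.o1 x hx)
  m x hx := c'.m _ (c.m x hx)
  o2 x hx := c'.o2 _ (c.o2 x hx)
  pair x hx y hy := (c'.pair _ (c.o1 x hx) _ (c.o2 y hy)).trans (c.pair x hx y hy)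

theorem neg (c : Corr h h' ψ) : Corr h h' (-ψ) where
  int x hx := neg_mem (c.int x hx)
  o1 x hx := neg_mem (c.o1 x hx)
  m x hx := neg_mem (c.m x hx)
  o2 x hx := neg_mem (c.o2 x hx)
  pair x hx y hy := by
    rw [← c.pair x hx y hy]
    simp

/-- a correspondence from its pairing -/
theorem of_pair (hi : ∀ x ∈ h.Λ, ∀ y ∈ h'.Λ, ∃ k : ℤ, h'.B (ψ x) y = k)
    (h11 : ∀ x ∈ h.O₁, ∀ y ∈ h'.O₁, h'.B (ψ x) y = 0)
    (h1M : ∀ x ∈ h.O₁, ∀ y ∈ h'.M, h'.B (ψ x) y = 0)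
    (hM1 : ∀ x ∈ h.M, ∀ y ∈ h'.O₁, h'.B (ψ x) y = 0)
    (hM2 : ∀ x ∈ h.M, ∀ y ∈ h'.O₂, h'.B (ψ x) y = 0)
    (h2M : ∀ x ∈ h.O₂, ∀ y ∈ h'.M, h'.B (ψ x) y = 0)
    (h22 : ∀ x ∈ h.O₂, ∀ y ∈ h'.O₂, h'.B (ψ x) y = 0)
    (hp : ∀ x ∈ h.O₁, ∀ y ∈ h.O₂, h'.B (ψ x) (ψ y) = h.B x y) : Corr h h' ψ where
  int x hx := h'.dual _ (hi x hx)
  o1 x hx := HL.mem_O₁ (h11 x hx) (h1M x hx)
  m x hx := HL.mem_M (hM1 x hx) (hM2 x hx)
  o2 x hx := HL.mem_O₂ (h22 x hx) (h2M x hx)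
  pair := hp

variable [FiniteDimensional ℂ H]

theorem map_T (c : Corr h h' ψ) {x : H} (hx : x ∈ h.T) : ψ x ∈ h'.T := fun n h1 h2 =>
  HL.kill_T (φ := h'.B.flip n ∘ₗ ψ) (fun y hy => h'.int _ (c.int y hy) n h1)
    (fun y hy => h'.o1M _ (c.o1 y hy) n h2) (fun y hy => h'.o2M _ (c.o2 y hy) n h2) hx

/-- a correspondence is an isometry on the transcendental part -/
theorem iso (c : Corr h h' ψ) {x : H} (hx : x ∈ h.T) (y : H) :
    h'.B (ψ x) (ψ y) = h.B x y := by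
  have h1 : ∀ y ∈ h.Λ, h'.B (ψ x) (ψ y) = h.B x y := by
    intro y hy
    obtain ⟨a, ha, b, hb, e, he, h2⟩ := h.dec y
    refine sub_eq_zero.1 (HL.kill_T (φ := h'.B.flip (ψ y) ∘ₗ ψ - h.B.flip y) (fun z hz => ?_)
      (fun z hz => sub_eq_zero.2 ?_) (fun z hz => sub_eq_zero.2 ?_) hx)
    · obtain ⟨k, hk⟩ := h'.int _ (c.int z hz) _ (c.int y hy)
      obtain ⟨k', hk'⟩ := h.int z hz y hy
      exact ⟨k - k', by rw [Int.cast_sub, ← hk, ← hk']; rfl⟩
    · show h'.B (ψ z) (ψ y) = h.B z y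
      rw [h2]
      simp only [map_add]
      rw [h'.o11 _ (c.o1 z hz) _ (c.o1 a ha), h'.o1M _ (c.o1 z hz) _ (c.m b hb),
        c.pair z hz e he, h.o11 z hz a ha, h.o1M z hz b hb]
    · show h'.B (ψ z) (ψ y) = h.B z y
      rw [h2]
      simp only [map_add]
      rw [h'.o22 _ (c.o2 z hz) _ (c.o2 e he), h'.o2M _ (c.o2 z hz) _ (c.m b hb), h'.symm,
        c.pair a ha z hz, h.o22 z hz e he, h.o2M z hz b hb, h.symm]
  exact Submodule.span_induction (p := fun y _ => h'.B (ψ x) (ψ y) = h.B x y) h1 (by simp)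
    (fun a b _ _ ha hb => by rw [map_add, map_add, map_add, ha, hb])
    (fun r a _ ha => by rw [map_smul, map_smul, map_smul, ha]) (h.span ▸ Submodule.mem_top (x := y))

theorem inj (c : Corr h h' ψ) {x : H} (hx : x ∈ h.T) (h0 : ψ x = 0) : x = 0 :=
  h.nd x fun y => by rw [← c.iso hx, h0, map_zero, LinearMap.zero_apply]

theorem finrank_map (c : Corr h h' ψ) {N : Submodule ℂ H} (hN : N ≤ h.T) :
    finrank ℂ (N.map ψ) = finrank ℂ N := by
  have h1 : Function.Injective (ψ.domRestrict N) :=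
    (injective_iff_map_eq_zero _).2 fun x hx => Subtype.ext (c.inj (hN x.2) hx)
  rw [← LinearMap.finrank_range_of_inj h1, LinearMap.range_domRestrict]

variable [FiniteDimensional ℂ H']

theorem finrank_O₁_le (c : Corr h h' ψ) : finrank ℂ h.O₁ ≤ finrank ℂ h'.O₁ := by
  rw [← c.finrank_map HL.O₁_le_T]
  exact Submodule.finrank_mono (Submodule.map_le_iff_le_comap.2 c.o1)

theorem finrank_T_le (c : Corr h h' ψ) : finrank ℂ h.T ≤ finrank ℂ h'.T := by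
  rw [← c.finrank_map le_rfl]
  exact Submodule.finrank_mono (Submodule.map_le_iff_le_comap.2 fun x hx => c.map_T hx)

theorem map_O₁ (c : Corr h h' ψ) (he : finrank ℂ h'.O₁ ≤ finrank ℂ h.O₁) :
    h.O₁.map ψ = h'.O₁ :=
  Submodule.eq_of_le_of_finrank_le (Submodule.map_le_iff_le_comap.2 c.o1)
    (by rwa [c.finrank_map HL.O₁_le_T])

theorem map_O₂ (c : Corr h h' ψ) (he : finrank ℂ h'.O₁ ≤ finrank ℂ h.O₁) :
    h.O₂.map ψ = h'.O₂ :=
  Submodule.eq_of_le_of_finrank_le (Submodule.map_le_iff_le_comap.2 c.o2)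
    (by rwa [c.finrank_map HL.O₂_le_T, HL.finrank_O₂, HL.finrank_O₂])

/-- a correspondence between surfaces with the same geometric genus is onto -/
theorem onto (c : Corr h h' ψ) (he : finrank ℂ h'.O₁ ≤ finrank ℂ h.O₁) : h.T.map ψ = h'.T := by
  refine le_antisymm (Submodule.map_le_iff_le_comap.2 fun x hx => c.map_T hx) ?_
  have h1 : h.T.map ψ ≤ Submodule.span ℂ (ψ '' {y | y ∈ h.Λ ∧ y ∈ h.T}) := by
    rw [← Submodule.map_span]
    exact Submodule.map_mono HL.T_le_span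
  refine (HL.T_le (S := ψ '' {y | y ∈ h.Λ ∧ y ∈ h.T}) ?_ ?_ ?_).trans (Submodule.span_le.2 ?_)
  · rintro _ ⟨y, hy, rfl⟩
    exact c.int y hy.1
  · exact c.map_O₁ he ▸ (Submodule.map_mono HL.O₁_le_T).trans h1
  · exact c.map_O₂ he ▸ (Submodule.map_mono HL.O₂_le_T).trans h1
  · rintro _ ⟨y, hy, rfl⟩
    exact ⟨y, hy.2, rfl⟩

theorem finrank_T (c : Corr h h' ψ) (he : finrank ℂ h'.O₁ ≤ finrank ℂ h.O₁) :
    finrank ℂ h.T = finrank ℂ h'.T := by
  rw [← c.onto he, c.finrank_map le_rfl]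

theorem finrank_O₁ (c : Corr h h' ψ) (h0 : h.O₁ ≠ ⊥) (h1 : finrank ℂ h'.O₁ = 1) :
    finrank ℂ h.O₁ = 1 :=
  le_antisymm (h1 ▸ c.finrank_O₁_le) (Submodule.one_le_finrank_iff.2 h0)

/-- the adjoint of a correspondence between surfaces with the same geometric genus -/
theorem adj (c : Corr h h' ψ) (he : finrank ℂ h'.O₁ ≤ finrank ℂ h.O₁) {g : H' →ₗ[ℂ] H}
    (hg : ∀ x y, h.B (g x) y = h'.B x (ψ y)) : Corr h' h g := by
  have h1 : ∀ x ∈ h.T, g (ψ x) = x := fun x hx => HL.eq_of_B fun z => by rw [hg, c.iso hx]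
  refine of_pair (fun x hx y hy => hg x y ▸ h'.int x hx _ (c.int y hy))
    (fun x hx y hy => hg x y ▸ h'.o11 x hx _ (c.o1 y hy))
    (fun x hx y hy => hg x y ▸ h'.o1M x hx _ (c.m y hy))
    (fun x hx y hy => by rw [hg, h'.symm, h'.o1M _ (c.o1 y hy) x hx])
    (fun x hx y hy => by rw [hg, h'.symm, h'.o2M _ (c.o2 y hy) x hx])
    (fun x hx y hy => hg x y ▸ h'.o2M x hx _ (c.m y hy))
    (fun x hx y hy => hg x y ▸ h'.o22 x hx _ (c.o2 y hy)) fun x _ y hy => ?_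
  obtain ⟨z, hz, rfl⟩ : y ∈ h.O₂.map ψ := (c.map_O₂ he).symm ▸ hy
  rw [hg, h1 z (HL.O₂_le_T hz)]

/-- the degree of the target divides the degree of the source -/
theorem dvd (c : Corr h h' ψ) (he : finrank ℂ h'.O₁ ≤ finrank ℂ h.O₁) {d d' : ℕ}
    (hd : h.Pic1 d) (hd' : h'.Pic1 d') : d' ∣ d := by
  obtain ⟨-, L, h1, h2, h3, h4⟩ := hd
  obtain ⟨h0, L', h1', h2', h3', h4'⟩ := hd'
  have h0' : (d' : ℂ) ≠ 0 := Nat.cast_ne_zero.2 h0
  obtain ⟨γ, hγ, h5⟩ := HL.exists_dual h1' h2' (h3' ▸ h0') h4'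
  have h6 : γ - (d' : ℂ)⁻¹ • L' ∈ h'.T := fun n h7 h8 => by
    obtain ⟨k, rfl⟩ := h4' n h7 h8
    rw [map_zsmul, map_sub, LinearMap.sub_apply, map_smul, LinearMap.smul_apply, h'.symm γ, h5,
      h3', smul_eq_mul, inv_mul_cancel₀ h0', sub_self, smul_zero]
  obtain ⟨y, hy, h7⟩ : γ - (d' : ℂ)⁻¹ • L' ∈ h.T.map ψ := (c.onto he).symm ▸ h6
  have h8 : (d : ℂ) • y ∈ h.Λ := h.dual _ fun μ hμ => by
    obtain ⟨k, hk⟩ := h.int μ hμ L h1
    have h9 : d • μ - k • L ∈ h.T := fun n h10 h11 => by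
      obtain ⟨m, rfl⟩ := h4 n h10 h11
      rw [map_zsmul, map_sub, LinearMap.sub_apply, map_nsmul, map_zsmul, LinearMap.smul_apply,
        LinearMap.smul_apply, hk, h3, nsmul_eq_mul, zsmul_eq_mul (d : ℂ), mul_comm (d : ℂ), sub_self,
        smul_zero]
    obtain ⟨m, hm⟩ := h'.int γ hγ _ (c.int _ (sub_mem (nsmul_mem hμ d) (zsmul_mem h1 k)))
    refine ⟨m, ?_⟩
    have h10 := c.iso hy (d • μ - k • L)
    rw [h7, map_sub h'.B, LinearMap.sub_apply, hm, map_smul, LinearMap.smul_apply, h'.symm L',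
      c.map_T h9 L' h1' h2', smul_zero, sub_zero, map_sub, map_nsmul, map_zsmul, hy L h1 h2,
      smul_zero, sub_zero, nsmul_eq_mul] at h10
    rw [map_smul, LinearMap.smul_apply, smul_eq_mul, h10]
  obtain ⟨k, hk⟩ := h'.int _ (c.int _ h8) γ hγ
  obtain ⟨k', hk'⟩ := h'.int γ hγ γ hγ
  rw [map_smul, h7, map_smul, LinearMap.smul_apply, map_sub, LinearMap.sub_apply, map_smul,
    LinearMap.smul_apply, h5, hk', smul_eq_mul, smul_eq_mul, mul_one] at hk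
  have h9 : (d : ℂ) = d' * (d * k' - k) := by
    rw [← hk]
    field_simp
    ring
  exact Int.natCast_dvd_natCast.1 ⟨d * k' - k, by exact_mod_cast h9⟩

end Corr

end Crest.Agent.X262.Int23
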