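import Crest.Agent.X262.Int23.K3
import Crest.Agent.X262.Chn.Defs
import Crest.Agent.X262.Hx56.Defs

/-!
# Row 262, INT (helper23), part 5: `NZStmt`, `MatchStmt`, `TransStmt`

* `BCG C` : base change of the Gysin map along an arbitrary morphism;
* `int1`, `int2` : integrality;
* `nzStmt`, `matchStmt`, `transStmt`.
-/

set_option autoImplicit false
set_option linter.style.haveILetI false

noncomputable section

namespace Crest.Agent.X262.Int23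

open Module Crest.Agent.X262.Coh Crest.Agent.X277 Crest.Agent.X277.Lef Crest.Agent.X277.AN.G1
  Crest.Agent.X277.BD Crest.Agent.X277.BD.Br
open Crest.Agent.X277.BD.Cyc (Rf)
open Crest.Agent.X262.Top (K3 Typ)
open Crest.Agent.X262.Chn

/-- base change of the Gysin map along an arbitrary morphism -/
def BCG (C : Th) : Prop :=
  ∀ {D X B : SV} (j : Coh.Hom D X) (a : BD ℂ X.F) (u : Coh.Hom B X), IsDv j a →
    (∃ c ∈ C.Lam B, ∃ w : Coh.Hom B D, ∀ x, C.pb u (C.push j x) = c * C.pb w x) ∨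
    ∃ (ι : Type) (_ : Fintype ι) (G : ι → SV) (v : ∀ i, Coh.Hom (G i) B)
      (w : ∀ i, Coh.Hom (G i) D) (m : ι → ℕ),
      ∀ x, C.pb u (C.push j x) = ∑ i, m i • C.push (v i) (C.pb (w i) x)

variable {C : Th} (A : C.Ax) {D D' X X' B : SV}

include A

theorem pb_prod_Lam (v : Coh.Hom D B) {l : List (C.H B)} (hl : ∀ y ∈ l, y ∈ C.Lam B) :
    ∀ y ∈ l.map (C.pb v), y ∈ C.Lam D := by
  simpa using fun y hy => A.lam.pb v y (hl y hy)

omit A in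
theorem int_sum {ι : Type} [Fintype ι] (m : ι → ℕ) {f : ι → ℂ} (h : ∀ i, ∃ k : ℤ, f i = k) :
    ∃ k : ℤ, ∑ i, m i • f i = k := by
  choose k hk using h
  exact ⟨∑ i, m i * k i, by simp [hk]⟩

theorem int1 (hB : BCG C) {j : Coh.Hom D X} {a : BD ℂ X.F} (hj : IsDv j a) (u : Coh.Hom B X)
    {x : C.H D} (hx : x ∈ C.Lam D) {l : List (C.H B)} (hl : ∀ y ∈ l, y ∈ C.Lam B) :
    ∃ k : ℤ, C.itg B (C.pb u (C.push j x) * l.prod) = k := by
  rcases hB j a u hj with ⟨c, hc, w, h⟩ | ⟨ι, _, G, v, w, m, h⟩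
  · rw [h, mul_assoc]
    exact A.lam.itg B (c :: C.pb w x :: l)
      (List.forall_mem_cons.2 ⟨hc, List.forall_mem_cons.2 ⟨A.lam.pb w x hx, hl⟩⟩)
  · rw [h, Finset.sum_mul, map_sum]
    simp only [smul_mul_assoc, map_nsmul]
    refine int_sum m fun i => ?_
    rw [push_adj A, map_list_prod]
    exact A.lam.itg _ (C.pb (w i) x :: l.map (C.pb (v i)))
      (List.forall_mem_cons.2 ⟨A.lam.pb _ x hx, pb_prod_Lam A _ hl⟩)

theorem int2 (hB : BCG C) {j : Coh.Hom D X} {a : BD ℂ X.F} (hj : IsDv j a) (u : Coh.Hom B X)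
    {x : C.H D} (hx : x ∈ C.Lam D) {j' : Coh.Hom D' X'} {a' : BD ℂ X'.F} (hj' : IsDv j' a')
    (u' : Coh.Hom B X') {x' : C.H D'} (hx' : x' ∈ C.Lam D') :
    ∃ k : ℤ, C.itg B (C.pb u' (C.push j' x') * C.pb u (C.push j x)) = k := by
  rcases hB j a u hj with ⟨c, hc, w, h⟩ | ⟨ι, _, G, v, w, m, h⟩
  · rw [h]
    simpa using int1 A hB hj' u' hx' (l := [c, C.pb w x]) (by simp [hc, A.lam.pb w x hx])
  · rw [h, mul_comm, Finset.sum_mul, map_sum]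
    simp only [smul_mul_assoc, map_nsmul]
    refine int_sum m fun i => ?_
    rw [push_adj A, ← A.man.pb_comp, mul_comm]
    simpa using int1 A hB hj' (Mor.comp u' (v i)) hx' (l := [C.pb (w i) x])
      (by simp [A.lam.pb _ x hx])

/-! ### blocks -/

section Blk

variable {K : Type} [Field K] [Algebra ℂ K] {b b' : Bw K} {U : PModel ℂ K}

omit A in
variable (C) in
/-- `ρ^* j_* π^*` -/
def tU (h : Ge U b.hi) : C.H b.Z →ₗ[ℂ] C.H (sv U) := (C.pb (mor h)).toLinearMap ∘ₗ b.t C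

omit A in
theorem tU_apply (h : Ge U b.hi) (x : C.H b.Z) :
    tU C h x = C.pb (mor h) (C.push b.j (C.pb b.π x)) := rfl

omit A in
variable (C) in
/-- its adjoint `π_* j^* ρ_*` -/
def tA (h : Ge U b.hi) : C.H (sv U) →ₗ[ℂ] C.H b.Z :=
  C.push b.π ∘ₗ (C.pb b.j).toLinearMap ∘ₗ C.push (mor h)

theorem tA_adj (h : Ge U b.hi) (z : C.H (sv U)) (x : C.H b.Z) :
    C.itg b.Z (tA C h z * x) = C.itg (sv U) (z * tU C h x) := by
  rw [tU_apply, ← push_adj A, mul_comm (C.push _ z), push_adj A, mul_comm (C.pb b.π x),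
    ← push_adj A]
  rfl

theorem tU_typ (h : Ge U b.hi) {p q : ℕ} {x : C.H b.Z} (hx : x ∈ C.typ b.Z p q) :
    tU C h x ∈ C.typ (sv U) (p + 1) (q + 1) :=
  have h1 : (sv b.hi).dim = 4 := b.dimK
  have h2 := b.dimE
  A.typ.pb _ _ (push_typ A b.j (by omega) (by omega) (A.typ.pb _ _ hx))

theorem tA_typ (h : Ge U b.hi) {p q : ℕ} {z : C.H (sv U)} (hz : z ∈ C.typ (sv U) (p + 1) (q + 1)) :
    tA C h z ∈ C.typ b.Z p q :=
  have h1 := b.dimZ
  have h2 := b.dimE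
  push_typ A b.π (by omega) (by omega) (A.typ.pb _ _ (push_typ A (mor h) rfl rfl hz))

theorem tU_cj (h : Ge U b.hi) (x : C.H b.Z) : tU C h (C.cj _ x) = C.cj _ (tU C h x) := by
  rw [tU_apply, tU_apply, A.man.cj_pb, push_cj A, A.man.cj_pb]

theorem tU_itg (h : Ge U b.hi) (hb : b.LH C) (x y : C.H b.Z) :
    C.itg (sv U) (tU C h x * tU C h y) = -C.itg b.Z (x * y) := by
  rw [tU_apply, tU_apply, ← map_mul, itg_bim A (bim_mor h), push_adj A, A.bc2 b.j b.e b.dv,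
    ← hb.fib, ← map_neg, Bw.xi, map_mul (C.pb b.π)]
  congr 1
  ring

theorem tA_tU (h : Ge U b.hi) (hb : b.LH C) (x : C.H b.Z) : tA C h (tU C h x) = -x :=
  eq_of_itg A fun y => by rw [tA_adj A, tU_itg A h hb, neg_mul, map_neg]

omit A in
theorem mem_up (h : Ge U b.hi) {z : C.H (sv U)} :
    z ∈ up C h (b.blk C) ↔ ∃ x ∈ C.typ b.Z 2 0, tU C h x = z := by
  rw [Chn.up, Bw.blk, ← Submodule.map_comp]
  rfl

/-- integral on `Lam` and type preserving -/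
theorem pre_of {S : SV} (hS : S.dim = 2) {f : C.H X →ₗ[ℂ] C.H S}
    (h1 : ∀ p q, p + q = 2 → ∀ a ∈ C.typ X p q, f a ∈ C.typ S p q)
    (h2 : ∀ a ∈ C.Lam X, ∀ y ∈ C.Lam S, ∃ k : ℤ, C.itg S (f a * y) = k) : Pre C f := by
  refine ⟨fun x hx => mem_Lam A hS ?_ (h2 x hx), h1⟩
  obtain ⟨a, ha, b, hb, c, hc, rfl⟩ := dec_one A (A.lam.dg X x hx)
  rw [map_add, map_add]
  exact add_mem (add_mem (A.typ.le S rfl (h1 2 0 rfl a ha)) (A.typ.le S rfl (h1 1 1 rfl b hb)))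
    (A.typ.le S rfl (h1 0 2 rfl c hc))

theorem rel_match (hB : BCG C) (h : Ge U b.hi) (h' : Ge U b'.hi) (hb : b.LH C) (hb' : b'.LH C)
    (he : up C h' (b'.blk C) ≤ up C h (b.blk C)) : Rel C b'.Z b.Z 1 := by
  have h1 : Pre C (tA C h ∘ₗ tU C h') :=
    pre_of A b.dimZ (fun p q _ a ha => tA_typ A h (tU_typ A h' ha)) fun a ha y hy => by
      rw [LinearMap.comp_apply, tA_adj A]
      exact int2 A hB b.dv _ (A.lam.pb _ y hy) b'.dv _ (A.lam.pb _ a ha)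
  have h2 : ∀ x' ∈ C.typ b'.Z 2 0, ∃ x, tU C h x = tU C h' x' := fun x' hx' =>
    ((mem_up h).1 (he ((mem_up h').2 ⟨x', hx', rfl⟩))).imp fun _ h3 => h3.2
  have h3 : ∀ x' ∈ C.typ b'.Z 2 0, ∀ y, C.itg b.Z (tA C h (tU C h' x') * tA C h (tU C h' y)) =
      C.itg b'.Z (x' * y) := fun x' hx' y => by
    obtain ⟨x, hx⟩ := h2 x' hx'
    rw [mul_comm, tA_adj A, ← hx, tA_tU A h hb, map_neg, hx, mul_neg, map_neg, tU_itg A h' hb',
      neg_neg, mul_comm]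
  refine ⟨one_ne_zero, _, _, h1, h1, fun x y hxy => ?_⟩
  rw [Int.cast_one, one_mul]
  rcases hxy with ⟨hx, -⟩ | ⟨-, hy⟩
  · exact h3 x hx y
  · rw [mul_comm, mul_comm x]
    exact h3 y hy x

omit A in
theorem exists_k3 {D : ℕ} (h : Typ D (Rf b.V)) : ∃ (F : Type) (_ : Field F) (_ : Algebra ℂ F)
    (_ : Algebra.EssFiniteType ℂ F) (d : ℕ) (_ : K3 F d), D ≤ d ∧ Nonempty (F ≃ₐ[ℂ] b.Z.F) := by
  obtain ⟨F, _, _, _, d, h1, ⟨S⟩, ⟨e⟩⟩ := h
  obtain ⟨e'⟩ := b.rat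
  exact ⟨F, _, _, _, d, S, h1, Surf.cancStmt F _ d S ⟨e.symm.trans e'⟩⟩

end Blk

theorem nzStmt : NZStmt C := by
  intro K _ _ D b h h0
  obtain ⟨F, _, _, _, d, S, -, ⟨e⟩⟩ := exists_k3 h
  have h1 := (rel_equiv A (X := sv S.P) e (dim_k3 S) b.dimZ).pg_le A (dim_k3 S) b.dimZ
  rw [pg_k3 A S, h0, finrank_bot] at h1
  exact absurd h1 (by decide)

theorem matchStmt (hB : BCG C) (hM : MinStmt) : MatchStmt C := by
  intro K _ _ D b b' U h h' hb hb' he ht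
  obtain ⟨x, hx, h0⟩ := Submodule.exists_mem_ne_zero_of_ne_bot (nzStmt A K D b ht)
  obtain ⟨F, _, _, _, d, S, hd, ⟨e⟩⟩ := exists_k3 ht
  obtain ⟨d', h1, h2⟩ := transfer A hM S b'.dimZ (fun h1 => by
      obtain ⟨x', hx', h2⟩ := (mem_up h').1 (he ▸ (mem_up h).2 ⟨x, hx, rfl⟩)
      rw [h1, Submodule.mem_bot] at hx'
      have h3 := tA_tU A h hb x
      rw [← h2, hx', map_zero, map_zero] at h3
      exact h0 (neg_eq_zero.1 h3.symm))
    ((rel_match A hB h h' hb hb' he.ge).trans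
      (rel_equiv A (Y := sv S.P) e.symm b.dimZ (dim_k3 S)))
  exact ⟨_, _, _, inferInstance, d', hd.trans (by simpa using h2), h1, b'.rat⟩

theorem transStmt (hB : BCG C) (hM : MinStmt) (hI : Hx56.IsoStmt C) : TransStmt C := by
  refine fun D => ⟨36 * D, ?_⟩
  rintro G hG ⟨F, _, _, _, d, L, _, _, hd, ⟨S⟩, hL⟩ K _ _ X hK b U h hX hb h0 he
  obtain ⟨N, Q, u, w, w', φ, n0, n1, hQ, -, p1, p2, hp⟩ :=
    hI G F L K d S X (sv U) (mor hX) hG hL hK (bim_mor hX)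
  have hS := dim_k3 S
  obtain ⟨d0, l, l1, l2, l3, l4⟩ := pic1_k3 A S
  obtain ⟨γ, g1, g2⟩ := HL.exists_dual l1 l2 (l3 ▸ Nat.cast_ne_zero.2 d0) l4
  have h1 : (l * γ : C.H (sv S.P)) ∈ C.dg _ 2 := A.man.dg_mul _ l.2 γ.2
  have h2 : (l * γ : C.H (sv S.P)) ∈ C.typ _ 2 2 := by
    obtain ⟨c, hc⟩ := top_eq A (hS ▸ h1)
    rw [hc, hS, pow_two]
    exact Submodule.smul_mem _ _ (A.typ.mul _ (A.typ.c1 _ _ oP_mem) (A.typ.c1 _ _ oP_mem))
  have h3 : Pre C (Hx56.psi C u w w' (l * γ) ∘ₗ tU C h) :=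
    pre_of A hS (fun p q _ a ha => push_typ A w (by omega) (by omega)
      (A.typ.mul _ (A.typ.pb u _ (tU_typ A h ha)) (A.typ.pb w' _ h2))) fun a ha y hy => by
      rw [LinearMap.comp_apply, Hx56.psi_apply, push_adj A, tU_apply, ← A.man.pb_comp,
        map_mul (C.pb w'), mul_assoc, mul_assoc]
      simpa using int1 A hB b.dv (Mor.comp (mor h) u) (A.lam.pb _ a ha)
        (l := [C.pb w' l, C.pb w' γ, C.pb w y])
        (by simp [A.lam.pb w' l l1, A.lam.pb w' γ g1, A.lam.pb w _ hy])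
  have h4 : ∀ x ∈ C.typ b.Z 2 0, ∃ y ∈ C.typ (sv X.P) 3 1, C.pb (mor hX) y = tU C h x :=
    fun x hx => he ((mem_up h).2 ⟨x, hx, rfl⟩)
  have h5 : ∀ x ∈ C.typ b.Z 0 2, ∃ y ∈ C.typ (sv X.P) 1 3, C.pb (mor hX) y = tU C h x :=
    fun x hx => by
      obtain ⟨y, hy, h5⟩ := h4 _ (A.typ.cj _ x hx)
      exact ⟨_, A.typ.cj _ y hy, by rw [A.man.cj_pb, h5, tU_cj A, A.man.cj_cj]⟩
  have h6 : Rel C b.Z (sv S.P) (-N) := by
    refine ⟨neg_ne_zero.2 n0, _, _, h3, h3.comp ⟨p1, p2⟩, fun x y hxy => ?_⟩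
    obtain ⟨x', y', h6, h7, h8⟩ : ∃ x' y', Opp C (sv X.P) 3 1 x' y' ∧
        C.pb (mor hX) x' = tU C h x ∧ C.pb (mor hX) y' = tU C h y := by
      rcases hxy with ⟨hx, hy⟩ | ⟨hx, hy⟩
      · obtain ⟨x', a1, a2⟩ := h4 x hx
        obtain ⟨y', a3, a4⟩ := h5 y hy
        exact ⟨x', y', Or.inl ⟨a1, a3⟩, a2, a4⟩
      · obtain ⟨x', a1, a2⟩ := h5 x hx
        obtain ⟨y', a3, a4⟩ := h4 y hy
        exact ⟨x', y', Or.inr ⟨a1, a3⟩, a2, a4⟩
    have h9 := hp _ h1 g2 x' y' h6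
    rw [← itg_bim A (bim_mor hX), map_mul (C.pb (mor hX)), h7, h8, tU_itg A h hb] at h9
    rw [Int.cast_neg, neg_mul, ← mul_neg]
    exact h9
  obtain ⟨d', h7, h8⟩ := transfer A hM S b.dimZ h0 h6
  rw [Int.natAbs_neg] at h8
  exact ⟨_, _, _, inferInstance, d', Nat.le_of_mul_le_mul_left
    (hd.trans (h8.trans (Nat.mul_le_mul_right _ n1))) (by decide), h7, b.rat⟩

end Crest.Agent.X262.Int23
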